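import Vale.Agent.P319.SC.Iface

/-! P319, block SC, package AM (the arithmetic mean inequality). -/

namespace Vale.Agent.P319.SC.H232

open Finset Matrix

variable {V ι : Type} [Fintype V] [DecidableEq V] [DecidableEq ι] {m : ℕ}

/-! ### Basic substitutions -/

theorem c2_swap (𝒞 : Cfg V ι m) (hm : 2 ≤ m) {a b a' b' : V} (h : 𝒞.c2 a b = 𝒞.c2 a' b') :
    𝒞.c2 b a = 𝒞.c2 b' a' := by
  have h1 := 𝒞.sub 2 2 hm hm (fun i => if i = 0 then 1 else 0)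
    (by intro i _; split_ifs <;> omega) _ _ h
  have e : ∀ a b : V, ins 1 (fun _ => a) b ∘ (fun i => if i = 0 then 1 else 0)
      = ins 1 (fun _ => b) a := by
    intro a b
    funext i
    by_cases hi : i = 0
    · simp [ins, hi]
    · have : ¬ i < 1 := by omega
      simp [ins, hi]
  rw [e, e] at h1
  exact h1

theorem c1_fst (𝒞 : Cfg V ι m) (hm : 2 ≤ m) {a b a' b' : V} (h : 𝒞.c2 a b = 𝒞.c2 a' b') :
    𝒞.c1 a = 𝒞.c1 a' := by
  have h1 := 𝒞.sub 1 2 (by omega) hm (fun _ => 0) (by intro i _; omega) _ _ h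
  have e : ∀ a b : V, (ins 1 (fun _ => a) b ∘ (fun _ => 0) : ℕ → V) = fun _ => a := by
    intro a b
    funext i
    simp [ins]
  rw [e, e] at h1
  exact h1

theorem c1_snd (𝒞 : Cfg V ι m) (hm : 2 ≤ m) {a b a' b' : V} (h : 𝒞.c2 a b = 𝒞.c2 a' b') :
    𝒞.c1 b = 𝒞.c1 b' := c1_fst 𝒞 hm (c2_swap 𝒞 hm h)

theorem c2_diag (𝒞 : Cfg V ι m) (hm : 2 ≤ m) {a b c : V} (h : 𝒞.c2 a b = 𝒞.c2 c c) : a = b := by
  have h1 := 𝒞.eqv 2 hm _ _ h.symm 0 (by omega) 1 (by omega) (by simp [ins])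
  simpa [ins] using h1

theorem c3_c2_left (𝒞 : Cfg V ι m) (hm : 3 ≤ m) {a b z a' b' z' : V}
    (h : 𝒞.col 3 (ins 2 (ins 1 (fun _ => a) b) z) = 𝒞.col 3 (ins 2 (ins 1 (fun _ => a') b') z')) :
    𝒞.c2 a z = 𝒞.c2 a' z' := by
  have h1 := 𝒞.sub 2 3 (by omega) hm (fun i => if i = 0 then 0 else 2)
    (by intro i _; split_ifs <;> omega) _ _ h
  have e : ∀ a b z : V, ins 2 (ins 1 (fun _ => a) b) z ∘ (fun i => if i = 0 then 0 else 2)
      = ins 1 (fun _ => a) z := by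
    intro a b z
    funext i
    by_cases hi : i = 0
    · simp [ins, hi]
    · simp [ins, hi]
  rw [e, e] at h1
  exact h1

theorem c3_c2_right (𝒞 : Cfg V ι m) (hm : 3 ≤ m) {a b z a' b' z' : V}
    (h : 𝒞.col 3 (ins 2 (ins 1 (fun _ => a) b) z) = 𝒞.col 3 (ins 2 (ins 1 (fun _ => a') b') z')) :
    𝒞.c2 z b = 𝒞.c2 z' b' := by
  have h1 := 𝒞.sub 2 3 (by omega) hm (fun i => if i = 0 then 2 else 1)
    (by intro i _; split_ifs <;> omega) _ _ h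
  have e : ∀ a b z : V, ins 2 (ins 1 (fun _ => a) b) z ∘ (fun i => if i = 0 then 2 else 1)
      = ins 1 (fun _ => z) b := by
    intro a b z
    funext i
    by_cases hi : i = 0
    · simp [ins, hi]
    · simp [ins, hi]
  rw [e, e] at h1
  exact h1

omit [DecidableEq V] in
/-- two colourings with fibres of the same sizes -/
theorem sum_eq_of_fibers {K : Type*} [AddCommMonoid K] (c d : V → ι) (F G : V → K)
    (h : ∀ i, (univ.filter fun z => c z = i).card = (univ.filter fun z => d z = i).card)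
    (hFG : ∀ z z', c z = d z' → F z = G z') : ∑ z, F z = ∑ z, G z := by
  have hc : ∀ i, Fintype.card {z // c z = i} = Fintype.card {z // d z = i} := by
    intro i
    rw [Fintype.card_subtype, Fintype.card_subtype]
    exact h i
  let e : V ≃ V := (Equiv.sigmaFiberEquiv c).symm.trans
    ((Equiv.sigmaCongrRight fun i => Fintype.equivOfCardEq (hc i)).trans (Equiv.sigmaFiberEquiv d))
  have he : ∀ z, d (e z) = c z := by
    intro z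
    show d (((Fintype.equivOfCardEq (hc (c z))) ⟨z, rfl⟩ : {z' // d z' = c z}) : V) = c z
    exact ((Fintype.equivOfCardEq (hc (c z))) ⟨z, rfl⟩).2
  rw [← Equiv.sum_comp e G]
  exact Finset.sum_congr rfl fun z _ => hFG z (e z) (he z).symm

theorem inv2_mul (𝒞 : Cfg V ι m) (hm : 3 ≤ m) {K : Type*} [NonUnitalNonAssocSemiring K]
    {A B : Matrix V V K} (hA : 𝒞.Inv2 A) (hB : 𝒞.Inv2 B) : 𝒞.Inv2 (A * B) := by
  intro a b a' b' h
  rw [Matrix.mul_apply, Matrix.mul_apply]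
  refine sum_eq_of_fibers (fun z => 𝒞.col 3 (ins 2 (ins 1 (fun _ => a) b) z))
    (fun z => 𝒞.col 3 (ins 2 (ins 1 (fun _ => a') b') z)) _ _ (fun i => ?_) ?_
  · exact 𝒞.ext 2 (by omega) _ _ h i
  · intro z z' hz
    rw [hA _ _ _ _ (c3_c2_left 𝒞 hm hz), hB _ _ _ _ (c3_c2_right 𝒞 hm hz)]

theorem inv2_transpose (𝒞 : Cfg V ι m) (hm : 2 ≤ m) {K : Type*}
    {A : Matrix V V K} (hA : 𝒞.Inv2 A) : 𝒞.Inv2 Aᵀ := by
  intro a b a' b' h
  exact hA _ _ _ _ (c2_swap 𝒞 hm h)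

/-! ### Adjacency matrices -/

/-- the adjacency matrix of a colour -/
def adj (𝒞 : Cfg V ι m) (i : ι) : Matrix V V ℝ := Matrix.of fun a b => if 𝒞.c2 a b = i then 1 else 0

theorem adj_apply (𝒞 : Cfg V ι m) (i : ι) (a b : V) :
    adj 𝒞 i a b = if 𝒞.c2 a b = i then 1 else 0 := rfl

/-- the number of pairs with a given colour -/
noncomputable def num (𝒞 : Cfg V ι m) (i : ι) : ℝ := ∑ a, ∑ b, adj 𝒞 i a b

theorem inv2_adj (𝒞 : Cfg V ι m) (i : ι) : 𝒞.Inv2 (adj 𝒞 i) := by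
  intro a b a' b' h
  simp [adj_apply, h]

theorem adj_nonneg (𝒞 : Cfg V ι m) (i : ι) (a b : V) : 0 ≤ adj 𝒞 i a b := by
  rw [adj_apply]; split_ifs <;> norm_num

theorem num_pos (𝒞 : Cfg V ι m) (a b : V) : 0 < num 𝒞 (𝒞.c2 a b) := by
  have h1 : adj 𝒞 (𝒞.c2 a b) a b = 1 := by simp [adj_apply]
  have h2 : adj 𝒞 (𝒞.c2 a b) a b ≤ ∑ b', adj 𝒞 (𝒞.c2 a b) a b' :=
    Finset.single_le_sum (f := fun b' => adj 𝒞 (𝒞.c2 a b) a b')
      (fun b' _ => adj_nonneg 𝒞 _ _ _) (mem_univ b)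
  have h3 : ∑ b', adj 𝒞 (𝒞.c2 a b) a b' ≤ num 𝒞 (𝒞.c2 a b) :=
    Finset.single_le_sum (f := fun a' => ∑ b', adj 𝒞 (𝒞.c2 a b) a' b')
      (fun a' _ => Finset.sum_nonneg fun b' _ => adj_nonneg 𝒞 _ _ _) (mem_univ a)
  linarith

theorem adj_swap (𝒞 : Cfg V ι m) (hm : 2 ≤ m) (a b x y : V) :
    adj 𝒞 (𝒞.c2 a b) x y = adj 𝒞 (𝒞.c2 b a) y x := by
  rw [adj_apply, adj_apply]
  by_cases h : 𝒞.c2 x y = 𝒞.c2 a b
  · rw [if_pos h, if_pos (c2_swap 𝒞 hm h)]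
  · rw [if_neg h, if_neg fun h' => h (c2_swap 𝒞 hm h')]

theorem num_swap (𝒞 : Cfg V ι m) (hm : 2 ≤ m) (a b : V) :
    num 𝒞 (𝒞.c2 a b) = num 𝒞 (𝒞.c2 b a) := by
  unfold num
  calc (∑ x, ∑ y, adj 𝒞 (𝒞.c2 a b) x y) = ∑ x, ∑ y, adj 𝒞 (𝒞.c2 b a) y x :=
        Finset.sum_congr rfl fun x _ => Finset.sum_congr rfl fun y _ => adj_swap 𝒞 hm a b x y
    _ = _ := Finset.sum_comm

/-- the trace form with an adjacency matrix -/
theorem sum_mul_adj (𝒞 : Cfg V ι m) {Z : Matrix V V ℝ} (hZ : 𝒞.Inv2 Z) (a c : V) :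
    ∑ x, ∑ y, Z x y * adj 𝒞 (𝒞.c2 a c) x y = Z a c * num 𝒞 (𝒞.c2 a c) := by
  unfold num
  rw [Finset.mul_sum]
  refine Finset.sum_congr rfl fun x _ => ?_
  rw [Finset.mul_sum]
  refine Finset.sum_congr rfl fun y _ => ?_
  by_cases h : 𝒞.c2 x y = 𝒞.c2 a c
  · rw [hZ _ _ _ _ h]
  · simp [adj_apply, h]

/-- the kernel of the averaging operator -/
noncomputable def ker (𝒞 : Cfg V ι m) (a b c d : V) : ℝ :=
  if 𝒞.c2 a c = 𝒞.c2 b d then (num 𝒞 (𝒞.c2 a c))⁻¹ else 0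

theorem ker_eq (𝒞 : Cfg V ι m) (a b c d : V) :
    ker 𝒞 a b c d = adj 𝒞 (𝒞.c2 b d) a c * (num 𝒞 (𝒞.c2 b d))⁻¹ := by
  rw [adj_apply]; unfold ker
  split_ifs with h
  · rw [h, one_mul]
  · simp

theorem ker_eq' (𝒞 : Cfg V ι m) (a b c d : V) :
    ker 𝒞 a b c d = adj 𝒞 (𝒞.c2 a c) b d * (num 𝒞 (𝒞.c2 a c))⁻¹ := by
  rw [adj_apply]; unfold ker
  by_cases h : 𝒞.c2 a c = 𝒞.c2 b d
  · rw [if_pos h, if_pos h.symm, one_mul]
  · rw [if_neg h, if_neg fun h' => h h'.symm, zero_mul]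

theorem ker_comm (𝒞 : Cfg V ι m) (a b c d : V) : ker 𝒞 a b c d = ker 𝒞 b a d c := by
  rw [ker_eq, ker_eq']

theorem ker_symm (𝒞 : Cfg V ι m) (hm : 2 ≤ m) (a b c d : V) : ker 𝒞 a b c d = ker 𝒞 c d a b := by
  unfold ker
  by_cases h : 𝒞.c2 a c = 𝒞.c2 b d
  · rw [if_pos h, if_pos (c2_swap 𝒞 hm h), num_swap 𝒞 hm]
  · rw [if_neg h, if_neg fun h' => h (c2_swap 𝒞 hm h')]

/-- the exchange identity -/
theorem ker_exchange (𝒞 : Cfg V ι m) (hm : 3 ≤ m) {Y : Matrix V V ℝ} (hY : 𝒞.Inv2 Y) (a b c d : V) :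
    ∑ e, Y a e * ker 𝒞 e b c d = ∑ e, ker 𝒞 a e c d * Y e b := by
  have hL : ∑ e, Y a e * ker 𝒞 e b c d
      = (Y * adj 𝒞 (𝒞.c2 b d)) a c * (num 𝒞 (𝒞.c2 b d))⁻¹ := by
    rw [Matrix.mul_apply, Finset.sum_mul]
    refine Finset.sum_congr rfl fun e _ => ?_
    rw [ker_eq]; ring
  have hR : ∑ e, ker 𝒞 a e c d * Y e b
      = (Yᵀ * adj 𝒞 (𝒞.c2 a c)) b d * (num 𝒞 (𝒞.c2 a c))⁻¹ := by
    rw [Matrix.mul_apply, Finset.sum_mul]
    refine Finset.sum_congr rfl fun e _ => ?_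
    rw [ker_eq', Matrix.transpose_apply]; ring
  have h1 := sum_mul_adj 𝒞 (inv2_mul 𝒞 hm hY (inv2_adj 𝒞 (𝒞.c2 b d))) a c
  have h2 := sum_mul_adj 𝒞 (inv2_mul 𝒞 hm (inv2_transpose 𝒞 (by omega) hY)
    (inv2_adj 𝒞 (𝒞.c2 a c))) b d
  have h3 : ∑ x, ∑ y, (Y * adj 𝒞 (𝒞.c2 b d)) x y * adj 𝒞 (𝒞.c2 a c) x y
      = ∑ x, ∑ y, (Yᵀ * adj 𝒞 (𝒞.c2 a c)) x y * adj 𝒞 (𝒞.c2 b d) x y := by
    simp only [Matrix.mul_apply, Matrix.transpose_apply, Finset.sum_mul]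
    rw [show (∑ x, ∑ y, ∑ i, Y x i * adj 𝒞 (𝒞.c2 b d) i y * adj 𝒞 (𝒞.c2 a c) x y)
      = ∑ x, ∑ i, ∑ y, Y x i * adj 𝒞 (𝒞.c2 b d) i y * adj 𝒞 (𝒞.c2 a c) x y from
      Finset.sum_congr rfl fun x _ => Finset.sum_comm]
    rw [Finset.sum_comm]
    refine Finset.sum_congr rfl fun i _ => ?_
    rw [Finset.sum_comm]
    refine Finset.sum_congr rfl fun y _ => Finset.sum_congr rfl fun x _ => ?_
    ring
  rw [hL, hR]
  have p1 := num_pos 𝒞 b d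
  have p2 := num_pos 𝒞 a c
  rw [h1, h2] at h3
  field_simp
  linarith

/-- the averaging operator -/
noncomputable def av (𝒞 : Cfg V ι m) (X : Matrix V V ℝ) : Matrix V V ℝ :=
  Matrix.of fun a b => ∑ c, ∑ d, ker 𝒞 a b c d * X c d

theorem av_apply (𝒞 : Cfg V ι m) (X : Matrix V V ℝ) (a b : V) :
    av 𝒞 X a b = ∑ c, ∑ d, ker 𝒞 a b c d * X c d := rfl

theorem av_comm (𝒞 : Cfg V ι m) (hm : 3 ≤ m) {Y : Matrix V V ℝ} (hY : 𝒞.Inv2 Y)
    (X : Matrix V V ℝ) : Y * av 𝒞 X = av 𝒞 X * Y := by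
  ext a b
  simp only [Matrix.mul_apply, av_apply, Finset.mul_sum, Finset.sum_mul]
  rw [Finset.sum_comm]
  rw [show (∑ x, ∑ c, ∑ d, ker 𝒞 a x c d * X c d * Y x b)
    = ∑ c, ∑ x, ∑ d, ker 𝒞 a x c d * X c d * Y x b from Finset.sum_comm]
  refine Finset.sum_congr rfl fun c _ => ?_
  rw [Finset.sum_comm]
  rw [show (∑ x, ∑ d, ker 𝒞 a x c d * X c d * Y x b)
    = ∑ d, ∑ x, ker 𝒞 a x c d * X c d * Y x b from Finset.sum_comm]
  refine Finset.sum_congr rfl fun d _ => ?_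
  have := ker_exchange 𝒞 hm hY a b c d
  calc ∑ x, Y a x * (ker 𝒞 x b c d * X c d) = (∑ x, Y a x * ker 𝒞 x b c d) * X c d := by
        rw [Finset.sum_mul]; exact Finset.sum_congr rfl fun x _ => by ring
    _ = (∑ x, ker 𝒞 a x c d * Y x b) * X c d := by rw [this]
    _ = _ := by rw [Finset.sum_mul]; exact Finset.sum_congr rfl fun x _ => by ring

/-- for matrices commuting with the algebra, averaging is multiplication by `av 1` -/
theorem av_commutant (𝒞 : Cfg V ι m) {u : Matrix V V ℝ}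
    (hu : ∀ i, adj 𝒞 i * u = u * adj 𝒞 i) : av 𝒞 u = u * av 𝒞 1 := by
  ext a b
  rw [Matrix.mul_apply]
  simp only [av_apply]
  have h1 : ∀ e : V, (∑ c, ∑ d, ker 𝒞 e b c d * (1 : Matrix V V ℝ) c d) = ∑ d, ker 𝒞 e b d d := by
    intro e
    rw [Finset.sum_comm]
    refine Finset.sum_congr rfl fun d _ => ?_
    rw [Finset.sum_eq_single d]
    · simp
    · intro c _ hc; simp [hc]
    · intro h; exact absurd (mem_univ _) h
  simp only [h1, Finset.mul_sum]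
  rw [Finset.sum_comm, Finset.sum_comm (f := fun x d => u a x * ker 𝒞 x b d d)]
  refine Finset.sum_congr rfl fun d _ => ?_
  have h2 := congrFun (congrFun (hu (𝒞.c2 b d)) a) d
  rw [Matrix.mul_apply, Matrix.mul_apply] at h2
  calc ∑ x, ker 𝒞 a b x d * u x d
      = (∑ x, adj 𝒞 (𝒞.c2 b d) a x * u x d) * (num 𝒞 (𝒞.c2 b d))⁻¹ := by
        rw [Finset.sum_mul]; refine Finset.sum_congr rfl fun x _ => ?_; rw [ker_eq]; ring
    _ = (∑ x, u a x * adj 𝒞 (𝒞.c2 b d) x d) * (num 𝒞 (𝒞.c2 b d))⁻¹ := by rw [h2]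
    _ = _ := by
        rw [Finset.sum_mul]; refine Finset.sum_congr rfl fun x _ => ?_; rw [ker_eq]; ring

/-- the averaging operator is selfadjoint -/
theorem av_selfadj (𝒞 : Cfg V ι m) (hm : 2 ≤ m) (X Y : Matrix V V ℝ) :
    ∑ a, ∑ b, av 𝒞 X a b * Y a b = ∑ a, ∑ b, X a b * av 𝒞 Y a b := by
  simp only [av_apply, Finset.mul_sum, Finset.sum_mul]
  have key : ∀ F : V → V → V → V → ℝ,
      (∑ a, ∑ b, ∑ c, ∑ d, F a b c d) = ∑ a, ∑ b, ∑ c, ∑ d, F c d a b := by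
    intro F
    calc (∑ a, ∑ b, ∑ c, ∑ d, F a b c d)
        = ∑ p : V × V, ∑ q : V × V, F p.1 p.2 q.1 q.2 := by
          simp only [Fintype.sum_prod_type]
      _ = ∑ q : V × V, ∑ p : V × V, F p.1 p.2 q.1 q.2 := Finset.sum_comm
      _ = _ := by simp only [Fintype.sum_prod_type]
  rw [key]
  refine Finset.sum_congr rfl fun a _ => Finset.sum_congr rfl fun b _ => Finset.sum_congr rfl
    fun c _ => Finset.sum_congr rfl fun d _ => ?_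
  rw [ker_symm 𝒞 hm c d a b]
  ring

theorem av_transpose (𝒞 : Cfg V ι m) {X : Matrix V V ℝ} (hX : Xᵀ = X) : (av 𝒞 X)ᵀ = av 𝒞 X := by
  ext a b
  simp only [Matrix.transpose_apply, av_apply]
  rw [Finset.sum_comm]
  refine Finset.sum_congr rfl fun c _ => Finset.sum_congr rfl fun d _ => ?_
  rw [ker_comm]
  have := congrFun (congrFun hX c) d
  rw [Matrix.transpose_apply] at this
  rw [this]

/-! ### Positivity -/

theorem av_one_comm (𝒞 : Cfg V ι m) (hm : 3 ≤ m) (i : ι) :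
    adj 𝒞 i * av 𝒞 1 = av 𝒞 1 * adj 𝒞 i := av_comm 𝒞 hm (inv2_adj 𝒞 i) 1

theorem av_one_apply (𝒞 : Cfg V ι m) (a b : V) : av 𝒞 1 a b = ∑ c, ker 𝒞 a b c c := by
  rw [av_apply]
  refine Finset.sum_congr rfl fun c _ => ?_
  rw [Finset.sum_eq_single c]
  · simp
  · intro d _ hd; simp [Ne.symm hd]
  · intro h; exact absurd (mem_univ _) h

theorem quad_av_one (𝒞 : Cfg V ι m) (x : V → ℝ) :
    x ⬝ᵥ (av 𝒞 1 *ᵥ x) = ∑ c, ∑ i ∈ univ.image (fun a => 𝒞.c2 a c),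
      (num 𝒞 i)⁻¹ * (∑ a, adj 𝒞 i a c * x a) ^ 2 := by
  have h1 : ∀ c, (∑ i ∈ univ.image (fun a => 𝒞.c2 a c),
      (num 𝒞 i)⁻¹ * (∑ a, adj 𝒞 i a c * x a) ^ 2) = ∑ a, ∑ b, x a * (ker 𝒞 a b c c * x b) := by
    intro c
    calc (∑ i ∈ univ.image (fun a => 𝒞.c2 a c), (num 𝒞 i)⁻¹ * (∑ a, adj 𝒞 i a c * x a) ^ 2)
        = ∑ i ∈ univ.image (fun a => 𝒞.c2 a c), ∑ a, ∑ b,
            (num 𝒞 i)⁻¹ * (adj 𝒞 i a c * x a) * (adj 𝒞 i b c * x b) := by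
          refine Finset.sum_congr rfl fun i _ => ?_
          rw [pow_two, Finset.sum_mul_sum, Finset.mul_sum]
          refine Finset.sum_congr rfl fun a _ => ?_
          rw [Finset.mul_sum]
          exact Finset.sum_congr rfl fun b _ => by ring
      _ = ∑ a, ∑ b, ∑ i ∈ univ.image (fun a => 𝒞.c2 a c),
            (num 𝒞 i)⁻¹ * (adj 𝒞 i a c * x a) * (adj 𝒞 i b c * x b) := by
          rw [Finset.sum_comm]
          exact Finset.sum_congr rfl fun a _ => Finset.sum_comm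
      _ = _ := by
          refine Finset.sum_congr rfl fun a _ => Finset.sum_congr rfl fun b _ => ?_
          rw [Finset.sum_eq_single (𝒞.c2 a c)]
          · rw [ker_eq', adj_apply, if_pos rfl]; ring
          · intro i _ hi
            rw [adj_apply, if_neg (Ne.symm hi)]; ring
          · intro h
            exact absurd (Finset.mem_image_of_mem _ (mem_univ a)) h
  rw [Finset.sum_congr rfl fun c _ => h1 c]
  simp only [dotProduct, Matrix.mulVec, av_one_apply, Finset.sum_mul, Finset.mul_sum]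
  calc (∑ a, ∑ b, ∑ c, x a * (ker 𝒞 a b c c * x b))
      = ∑ a, ∑ c, ∑ b, x a * (ker 𝒞 a b c c * x b) :=
        Finset.sum_congr rfl fun a _ => Finset.sum_comm
    _ = _ := Finset.sum_comm

theorem quad_nonneg (𝒞 : Cfg V ι m) (x : V → ℝ) : 0 ≤ x ⬝ᵥ (av 𝒞 1 *ᵥ x) := by
  rw [quad_av_one]
  refine Finset.sum_nonneg fun c _ => Finset.sum_nonneg fun i hi => ?_
  obtain ⟨a, -, rfl⟩ := Finset.mem_image.1 hi
  exact mul_nonneg (inv_nonneg.2 (num_pos 𝒞 a c).le) (sq_nonneg _)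

theorem quad_pos (𝒞 : Cfg V ι m) (hm : 2 ≤ m) {x : V → ℝ} (hx : x ≠ 0) :
    0 < x ⬝ᵥ (av 𝒞 1 *ᵥ x) := by
  obtain ⟨c, hc⟩ := Function.ne_iff.1 hx
  rw [quad_av_one]
  have h0 : ∀ c, ∀ i ∈ univ.image (fun a => 𝒞.c2 a c),
      0 ≤ (num 𝒞 i)⁻¹ * (∑ a, adj 𝒞 i a c * x a) ^ 2 := by
    intro c i hi
    obtain ⟨a, -, rfl⟩ := Finset.mem_image.1 hi
    exact mul_nonneg (inv_nonneg.2 (num_pos 𝒞 a c).le) (sq_nonneg _)
  have h1 : (∑ a, adj 𝒞 (𝒞.c2 c c) a c * x a) = x c := by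
    rw [Finset.sum_eq_single c]
    · rw [adj_apply, if_pos rfl, one_mul]
    · intro a _ ha
      rw [adj_apply, if_neg, zero_mul]
      exact fun h => ha (c2_diag 𝒞 hm h)
    · intro h; exact absurd (mem_univ _) h
  have h2 : 0 < (num 𝒞 (𝒞.c2 c c))⁻¹ * (∑ a, adj 𝒞 (𝒞.c2 c c) a c * x a) ^ 2 := by
    rw [h1]
    have := num_pos 𝒞 c c
    have hc' : x c ≠ 0 := hc
    positivity
  refine lt_of_lt_of_le h2 ?_
  refine le_trans ?_ (Finset.single_le_sum (f := fun c => ∑ i ∈ univ.image (fun a => 𝒞.c2 a c),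
      (num 𝒞 i)⁻¹ * (∑ a, adj 𝒞 i a c * x a) ^ 2)
    (fun c _ => Finset.sum_nonneg (h0 c)) (mem_univ c))
  exact Finset.single_le_sum (f := fun i => (num 𝒞 i)⁻¹ * (∑ a, adj 𝒞 i a c * x a) ^ 2) (h0 c)
    (Finset.mem_image_of_mem _ (mem_univ c))

theorem av_one_symm (𝒞 : Cfg V ι m) : (av 𝒞 1)ᵀ = av 𝒞 1 :=
  av_transpose 𝒞 Matrix.transpose_one

theorem av_one_isUnit (𝒞 : Cfg V ι m) (hm : 2 ≤ m) : IsUnit (av 𝒞 1) := by
  have h : (av 𝒞 1).PosDef := by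
    refine Matrix.PosDef.of_dotProduct_mulVec_pos ?_ ?_
    · show (av 𝒞 1)ᴴ = av 𝒞 1
      rw [Matrix.conjTranspose_eq_transpose_of_trivial]
      exact av_one_symm 𝒞
    · intro x hx
      have := quad_pos 𝒞 hm hx
      simpa using this
  exact h.isUnit

/-- the averaging operator is positive semidefinite -/
theorem av_psd (𝒞 : Cfg V ι m) (hm : 3 ≤ m) (s : Matrix V V ℝ) :
    0 ≤ ∑ a, ∑ b, av 𝒞 s a b * s a b := by
  set D := av 𝒞 1 with hD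
  set w := av 𝒞 s with hw
  have hU := av_one_isUnit 𝒞 (by omega : 2 ≤ m)
  rw [← hD] at hU
  have hdet : IsUnit D.det := (Matrix.isUnit_iff_isUnit_det D).1 hU
  have hwc : ∀ i, adj 𝒞 i * w = w * adj 𝒞 i := fun i => av_comm 𝒞 hm (inv2_adj 𝒞 i) s
  have hDc : ∀ i, adj 𝒞 i * D = D * adj 𝒞 i := fun i => av_one_comm 𝒞 hm i
  have hDi : ∀ i, adj 𝒞 i * D⁻¹ = D⁻¹ * adj 𝒞 i := by
    intro i
    calc adj 𝒞 i * D⁻¹ = D⁻¹ * D * (adj 𝒞 i * D⁻¹) := by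
          rw [Matrix.nonsing_inv_mul _ hdet, Matrix.one_mul]
      _ = D⁻¹ * (D * adj 𝒞 i) * D⁻¹ := by simp only [Matrix.mul_assoc]
      _ = D⁻¹ * (adj 𝒞 i * D) * D⁻¹ := by rw [hDc]
      _ = D⁻¹ * adj 𝒞 i * (D * D⁻¹) := by simp only [Matrix.mul_assoc]
      _ = D⁻¹ * adj 𝒞 i := by rw [Matrix.mul_nonsing_inv _ hdet, Matrix.mul_one]
  set u := w * D⁻¹ with hu
  have huc : ∀ i, adj 𝒞 i * u = u * adj 𝒞 i := by
    intro i
    rw [hu, ← Matrix.mul_assoc, hwc, Matrix.mul_assoc, hDi, Matrix.mul_assoc]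
  have hav : av 𝒞 u = w := by
    rw [av_commutant 𝒞 huc, ← hD, hu, Matrix.mul_assoc, Matrix.nonsing_inv_mul _ hdet,
      Matrix.mul_one]
  have h1 : ∑ a, ∑ b, w a b * s a b = ∑ a, ∑ b, u a b * w a b := by
    have := av_selfadj 𝒞 (by omega : 2 ≤ m) u s
    rw [hav] at this
    exact this
  rw [h1]
  have h2 : w = u * D := by rw [hu, Matrix.mul_assoc, Matrix.nonsing_inv_mul _ hdet, Matrix.mul_one]
  have h3 : ∑ a, ∑ b, u a b * w a b = ∑ a, (u a) ⬝ᵥ (D *ᵥ (u a)) := by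
    refine Finset.sum_congr rfl fun a _ => ?_
    simp only [dotProduct, Matrix.mulVec]
    refine Finset.sum_congr rfl fun b _ => ?_
    congr 1
    conv_lhs => rw [h2]
    rw [Matrix.mul_apply]
    refine Finset.sum_congr rfl fun c _ => ?_
    have := congrFun (congrFun (av_one_symm 𝒞) b) c
    rw [Matrix.transpose_apply] at this
    rw [hD, this]; ring
  rw [h3]
  exact Finset.sum_nonneg fun a _ => quad_nonneg 𝒞 (u a)

/-! ### Counting colours -/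

theorem mem_cls (𝒞 : Cfg V ι m) (ρ : ι) (a : V) : a ∈ 𝒞.cls ρ ↔ 𝒞.c1 a = ρ := by
  simp [Cfg.cls]

theorem sum_inv_num (𝒞 : Cfg V ι m) (hm : 2 ≤ m) (ρ σ : ι) :
    ∑ a ∈ 𝒞.cls ρ, ∑ b ∈ 𝒞.cls σ, (num 𝒞 (𝒞.c2 a b))⁻¹ = ((𝒞.rels ρ σ).card : ℝ) := by
  rw [← Finset.sum_product' (𝒞.cls ρ) (𝒞.cls σ) (fun a b => (num 𝒞 (𝒞.c2 a b))⁻¹)]
  have h1 : ∀ p ∈ 𝒞.cls ρ ×ˢ 𝒞.cls σ, 𝒞.c2 p.1 p.2 ∈ 𝒞.rels ρ σ := fun p hp =>
    Finset.mem_image_of_mem (fun ab : V × V => 𝒞.c2 ab.1 ab.2) hp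
  rw [← Finset.sum_fiberwise_of_maps_to h1]
  rw [Finset.card_eq_sum_ones, Nat.cast_sum]
  refine Finset.sum_congr rfl fun i hi => ?_
  obtain ⟨⟨a, b⟩, hab, rfl⟩ := Finset.mem_image.1 hi
  dsimp only at hab ⊢
  rw [Finset.mem_product, mem_cls, mem_cls] at hab
  have h2 : ∀ p ∈ (𝒞.cls ρ ×ˢ 𝒞.cls σ).filter (fun p => 𝒞.c2 p.1 p.2 = 𝒞.c2 a b),
      (num 𝒞 (𝒞.c2 p.1 p.2))⁻¹ = (num 𝒞 (𝒞.c2 a b))⁻¹ := by
    intro p hp
    rw [(Finset.mem_filter.1 hp).2]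
  rw [Finset.sum_congr rfl h2, Finset.sum_const, nsmul_eq_mul]
  have h3 : (((𝒞.cls ρ ×ˢ 𝒞.cls σ).filter (fun p => 𝒞.c2 p.1 p.2 = 𝒞.c2 a b)).card : ℝ)
      = num 𝒞 (𝒞.c2 a b) := by
    have e : (𝒞.cls ρ ×ˢ 𝒞.cls σ).filter (fun p => 𝒞.c2 p.1 p.2 = 𝒞.c2 a b)
        = (univ : Finset (V × V)).filter (fun p => 𝒞.c2 p.1 p.2 = 𝒞.c2 a b) := by
      ext p
      simp only [Finset.mem_filter, Finset.mem_product, mem_cls, mem_univ, true_and,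
        and_iff_right_iff_imp]
      intro h
      exact ⟨(c1_fst 𝒞 hm h).trans hab.1, (c1_snd 𝒞 hm h).trans hab.2⟩
    rw [e, Finset.card_filter]
    push_cast
    rw [Fintype.sum_prod_type]
    rfl
  rw [h3, Nat.cast_one, mul_inv_cancel₀ (num_pos 𝒞 a b).ne']

/-- **block AM** -/
theorem am : AMStmt := by
  intro V ι _ _ _ m 𝒞 hm ρ σ
  by_cases hρσ : ρ = σ
  · subst hρσ; omega
  set x : V → ℝ := fun a => (if 𝒞.c1 a = ρ then 1 else 0) - (if 𝒞.c1 a = σ then 1 else 0) with hx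
  have h1 := av_psd 𝒞 hm (Matrix.diagonal x)
  have h2 : ∑ a, ∑ b, av 𝒞 (Matrix.diagonal x) a b * Matrix.diagonal x a b
      = ∑ a, ∑ b, x a * x b * (num 𝒞 (𝒞.c2 a b))⁻¹ := by
    refine Finset.sum_congr rfl fun a _ => ?_
    rw [Finset.sum_eq_single a]
    · rw [Matrix.diagonal_apply_eq, av_apply, Finset.sum_mul]
      refine Finset.sum_congr rfl fun b _ => ?_
      rw [Finset.sum_eq_single b]
      · rw [Matrix.diagonal_apply_eq]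
        unfold ker
        rw [if_pos rfl]; ring
      · intro d _ hd; rw [Matrix.diagonal_apply_ne _ (Ne.symm hd), mul_zero]
      · intro h; exact absurd (mem_univ _) h
    · intro b _ hb; rw [Matrix.diagonal_apply_ne _ (Ne.symm hb), mul_zero]
    · intro h; exact absurd (mem_univ _) h
  rw [h2] at h1
  have h3 : ∀ α β : ι, ∑ a, ∑ b, (if 𝒞.c1 a = α then (1:ℝ) else 0) * (if 𝒞.c1 b = β then 1 else 0)
      * (num 𝒞 (𝒞.c2 a b))⁻¹ = ((𝒞.rels α β).card : ℝ) := by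
    intro α β
    rw [← sum_inv_num 𝒞 (by omega : 2 ≤ m) α β]
    simp only [Cfg.cls, Finset.sum_filter]
    refine Finset.sum_congr rfl fun a _ => ?_
    by_cases ha : 𝒞.c1 a = α
    · simp only [ha, if_true, one_mul]
      refine Finset.sum_congr rfl fun b _ => ?_
      by_cases hb : 𝒞.c1 b = β <;> simp [hb]
    · simp [ha]
  have h4 : (𝒞.rels σ ρ).card = (𝒞.rels ρ σ).card := by
    have e1 := sum_inv_num 𝒞 (by omega : 2 ≤ m) σ ρ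
    have e2 := sum_inv_num 𝒞 (by omega : 2 ≤ m) ρ σ
    rw [Finset.sum_comm] at e1
    have e3 : ∑ y ∈ 𝒞.cls ρ, ∑ x ∈ 𝒞.cls σ, (num 𝒞 (𝒞.c2 x y))⁻¹
        = ∑ a ∈ 𝒞.cls ρ, ∑ b ∈ 𝒞.cls σ, (num 𝒞 (𝒞.c2 a b))⁻¹ :=
      Finset.sum_congr rfl fun a _ => Finset.sum_congr rfl fun b _ => by
        rw [num_swap 𝒞 (by omega : 2 ≤ m)]
    rw [e3, e2] at e1
    exact_mod_cast e1.symm
  have h5 : ∑ a, ∑ b, x a * x b * (num 𝒞 (𝒞.c2 a b))⁻¹
      = (𝒞.rels ρ ρ).card - (𝒞.rels ρ σ).card - (𝒞.rels σ ρ).card + (𝒞.rels σ σ).card := by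
    rw [← h3 ρ ρ, ← h3 ρ σ, ← h3 σ ρ, ← h3 σ σ, ← Finset.sum_sub_distrib, ← Finset.sum_sub_distrib,
      ← Finset.sum_add_distrib]
    refine Finset.sum_congr rfl fun a _ => ?_
    rw [← Finset.sum_sub_distrib, ← Finset.sum_sub_distrib, ← Finset.sum_add_distrib]
    refine Finset.sum_congr rfl fun b _ => ?_
    simp only [hx]
    ring
  rw [h5, h4] at h1
  have h6 : (2 * (𝒞.rels ρ σ).card : ℝ) ≤ (𝒞.rels ρ ρ).card + (𝒞.rels σ σ).card := by linarith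
  exact_mod_cast h6

end Vale.Agent.P319.SC.H232
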