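import Vale.Agent.P319.SC.H232.Exp
import Vale.Agent.P319.SC.QL.QIface3

/-! P319, block SC: the exponent `(log s)^(a/b)`. -/

set_option linter.all false

namespace Vale.Agent.P319.SC.H232

/-- the exponent `(log s)^(a/b)` (rounded) -/
noncomputable def eab (a b : ℕ) (s : ℕ) : ℕ := ⌈((Nat.log 2 s : ℕ) : ℝ) ^ ((a : ℝ) / b)⌉₊ + 1

theorem eab_ok (a b : ℕ) : ExpOK (eab a b) where
  one s := Nat.succ_pos _
  mono r s h := by
    unfold eab
    have h1 : ⌈((Nat.log 2 r : ℕ) : ℝ) ^ ((a : ℝ) / b)⌉₊ ≤ ⌈((Nat.log 2 s : ℕ) : ℝ) ^ ((a : ℝ) / b)⌉₊ := by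
      apply Nat.ceil_mono
      apply Real.rpow_le_rpow (by positivity) _ (by positivity)
      exact_mod_cast Nat.log_mono_right h
    omega

theorem pow_le_eab {a b : ℕ} (hb : b ≠ 0) (s : ℕ) : (Nat.log 2 s) ^ a ≤ (eab a b s) ^ b := by
  have h1 : ((Nat.log 2 s : ℕ) : ℝ) ^ ((a : ℝ) / b) ≤ (eab a b s : ℕ) := by
    unfold eab
    push_cast
    have := Nat.le_ceil (((Nat.log 2 s : ℕ) : ℝ) ^ ((a : ℝ) / b))
    linarith
  have h2 : (((Nat.log 2 s : ℕ) : ℝ) ^ ((a : ℝ) / b)) ^ b = ((Nat.log 2 s : ℕ) : ℝ) ^ a := by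
    rw [← Real.rpow_natCast, ← Real.rpow_mul (by positivity), ← Real.rpow_natCast]
    congr 1
    field_simp
  have h3 : ((Nat.log 2 s : ℕ) : ℝ) ^ a ≤ ((eab a b s : ℕ) : ℝ) ^ b := by
    rw [← h2]
    exact pow_le_pow_left₀ (by positivity) h1 b
  exact_mod_cast h3

/-- the condition of the combinatorial theorem `m ^ b ≤ C (log n) ^ a` -/
def badab (C a b : ℕ) (m n : ℕ) : Prop := C * (Nat.log 2 n) ^ a < m ^ b

theorem arith_ab (C : ℕ) {a b : ℕ} (ha : a ≠ 0) (hb : b ≠ 0) :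
    ArithE (eab a b) (2 * (C + 12)) (badab C a b) := by
  intro s n N M hn hns hN hM
  have h1 : 2 * (C + 12) * eab a b s ≤ M := hM _ ((Nat.pow_le_pow_left hns _).trans hN)
  have h2 : 1 ≤ eab a b s := (eab_ok a b).one s
  have h3 : (C + 12) * eab a b s ≤ M / 2 := by
    rw [Nat.le_div_iff_mul_le (by norm_num)]
    nlinarith
  refine ⟨by nlinarith, ?_⟩
  unfold badab
  have h4 : ((C + 12) * eab a b s) ^ b ≤ (M / 2) ^ b := Nat.pow_le_pow_left h3 b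
  refine lt_of_lt_of_le ?_ h4
  rw [mul_pow]
  have h5 : C + 12 ≤ (C + 12) ^ b := Nat.le_self_pow hb _
  have h6 := pow_le_eab (a := a) hb s
  have h7 : (Nat.log 2 n) ^ a ≤ (Nat.log 2 s) ^ a := Nat.pow_le_pow_left (Nat.log_mono_right hns) a
  have h8 : 1 ≤ (eab a b s) ^ b := Nat.one_le_pow _ _ h2
  calc C * Nat.log 2 n ^ a ≤ C * (eab a b s) ^ b := Nat.mul_le_mul_left _ (h7.trans h6)
    _ < (C + 12) * (eab a b s) ^ b := Nat.mul_lt_mul_of_pos_right (by omega) h8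
    _ ≤ (C + 12) ^ b * (eab a b s) ^ b := Nat.mul_le_mul_right _ h5

theorem eab_scE3 : eab 2 3 = QL3.scE3 := by
  funext s
  unfold eab QL3.scE3
  norm_num

theorem nre_eab (h : QL3.NR2Stmt) : NRE (eab 2 3) := by
  rw [eab_scE3]
  exact h

end Vale.Agent.P319.SC.H232
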