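import Vale.Agent.P319.Ev.Comb
import Vale.Agent.P319.TF.H201.FptK
import Vale.Agent.P319.SC.AIface
import Vale.Agent.P319.SC.QL.QIface

/-! P319, block SC, package FIN56: the bound `s ^ (log s / log log s)` for almost all primes, and
amortized over the primes. -/

set_option linter.all false

namespace Vale.Agent.P319.SC.H232

open Polynomial Vale.Agent.P319.U Vale.Agent.P319.TF Vale.Agent.P319.SC.QL

/-! ### Exponent functions -/

/-- the properties of the exponent function which are needed -/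
structure ExpOK (e : ℕ → ℕ) : Prop where
  one : ∀ s, 1 ≤ e s
  mono : ∀ r s, r ≤ s → e r ≤ 2 * e s

theorem ExpOK.pow_mono {e : ℕ → ℕ} (he : ExpOK e) {r s : ℕ} (h : r ≤ s) (hs : 1 ≤ s) :
    r ^ e r ≤ (s ^ e s) ^ 2 := by
  rw [← pow_mul]
  exact (Nat.pow_le_pow_left h _).trans
    (Nat.pow_le_pow_right hs ((he.mono r s h).trans (le_of_eq (mul_comm _ _))))

/-- (compare `QL.NR2Stmt`) -/
def NRE (e : ℕ → ℕ) : Prop := ∀ ε : ℝ, 0 < ε → ∃ (C : ℕ) (E : Set ℕ),
  (∀ X : ℕ, ((E ∩ Set.Iic X).ncard : ℝ) ≤ C * (X : ℝ) ^ (1 / 2 + ε)) ∧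
  ∀ p : ℕ, p.Prime → p ∉ E → ∀ r : ℕ, r.Prime → ∀ N : ℕ, (r ^ e r * Nat.size p) ^ C ≤ N →
    p ≤ N ∨ ∃ l < N, l.Prime ∧ l % r = 1 ∧ p % l ≠ 0 ∧ p ^ ((l - 1) / r) % l ≠ 1

/-- completeness of a machine with budget `s ^ (C₀ e(s))`, given nonresidues (compare
`SC.MachStmt`) -/
def ComplE (e : ℕ → ℕ) (C₀ : ℕ) (nr : ℕ → ℕ → ℕ → List (List ℕ)) (A : Data → Data) : Prop :=
  ∀ (p : ℕ) (_ : p.Prime) (f : (ZMod p)[X]) (_ : f ≠ 0) (s : ℕ), 1 ≤ s → FewFacN s f →
    ∀ w : Data, s ^ (C₀ * e s) ≤ w.dataSize →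
      (∀ N : ℕ, w.dataSize ≤ N → N < p → ∀ r : ℕ, r.Prime → r ≤ s → nr p N r ≠ []) →
      IsFactorization f (A (Data.pair (input f) w))

/-- (compare `SC.MachStmt`) -/
def MachE (e : ℕ → ℕ) (C₀ : ℕ) (nr : ℕ → ℕ → ℕ → List (List ℕ)) : Prop :=
  ∃ A : Data → Data, PolyTime A ∧
    (∀ (p : ℕ) (_ : p.Prime) (f : (ZMod p)[X]) (_ : f ≠ 0) (w : Data),
      A (Data.pair (input f) w) = Data.num 0 ∨ IsFactorization f (A (Data.pair (input f) w))) ∧
    ComplE e C₀ nr A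

/-! ### The exponent `scE` is almost monotone -/

theorem two_pow_div_mono {a b : ℕ} (ha : 1 ≤ a) (hab : a ≤ b) : 2 ^ a * b ≤ 2 ^ b * a := by
  induction b, hab using Nat.le_induction with
  | base => exact le_rfl
  | succ b hb ih =>
    have h1 : 1 ≤ b := ha.trans hb
    have h2 : 2 ^ a ≤ 2 ^ b := Nat.pow_le_pow_right (by norm_num) hb
    have h3 : 2 ^ b ≤ 2 ^ b * a := Nat.le_mul_of_pos_right _ ha
    have h4 : 2 ^ a ≤ 2 ^ b * a := h2.trans h3
    calc 2 ^ a * (b + 1) = 2 ^ a * b + 2 ^ a := by ring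
      _ ≤ 2 ^ b * a + 2 ^ b * a := Nat.add_le_add ih h4
      _ = 2 ^ (b + 1) * a := by ring

theorem div_log_mono {L M : ℕ} (h : L ≤ M) :
    L / Nat.log 2 L + 1 ≤ 2 * (M / Nat.log 2 M + 1) := by
  rcases Nat.eq_zero_or_pos (Nat.log 2 L) with h0 | h0
  · rw [h0, Nat.div_zero]
    generalize M / Nat.log 2 M = x
    omega
  set a := Nat.log 2 L with ha
  set b := Nat.log 2 M with hb
  have hab : a ≤ b := Nat.log_mono_right h
  have hb0 : 1 ≤ b := le_trans h0 hab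
  have hM0 : M ≠ 0 := by
    rintro rfl
    rw [hb] at hb0
    simp at hb0
  rcases Nat.eq_or_lt_of_le hab with he | hlt
  · rw [he]
    have h1 : L / b ≤ M / b := Nat.div_le_div_right h
    generalize L / b = x at *
    generalize M / b = y at *
    omega
  · -- `L < 2 ^ (a + 1)`, `2 ^ b ≤ M`
    have h1 : L < 2 ^ (a + 1) := Nat.lt_pow_succ_log_self (by norm_num) L
    have h2 : 2 ^ b ≤ M := Nat.pow_log_le_self 2 hM0
    have h3 : 2 ^ (a + 1) * b ≤ 2 ^ b * (a + 1) := two_pow_div_mono (by omega) hlt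
    -- `M / b ≥ q`, `L / a ≤ 2 q + 1`
    set q := M / b with hq
    have h4 : M < b * (q + 1) := by
      have := Nat.lt_mul_div_succ M (show 0 < b by omega)
      rwa [← hq] at this
    have h5 : L / a < 2 * (q + 1) := by
      rw [Nat.div_lt_iff_lt_mul (by omega)]
      by_contra hc
      rw [not_lt] at hc
      have h6 : 2 * (q + 1) * a * b ≤ L * b := Nat.mul_le_mul_right _ hc
      have h7 : L * b < 2 ^ (a + 1) * b := Nat.mul_lt_mul_of_pos_right h1 (by omega)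
      have h8 : 2 ^ b * (a + 1) ≤ M * (a + 1) := Nat.mul_le_mul_right _ h2
      have h9 : M * (a + 1) < b * (q + 1) * (a + 1) := Nat.mul_lt_mul_of_pos_right h4 (by omega)
      have h10 : 2 * (q + 1) * a * b < b * (q + 1) * (a + 1) :=
        (h6.trans_lt (h7.trans_le (h3.trans h8))).trans h9
      have h11 : b * (q + 1) * (a + 1) ≤ b * (q + 1) * (2 * a) :=
        Nat.mul_le_mul_left _ (by omega)
      have h12 : b * (q + 1) * (2 * a) = 2 * (q + 1) * a * b := by ring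
      omega
    generalize L / a = x at *
    omega

theorem scE_ok : ExpOK scE where
  one s := by
    unfold scE
    exact Nat.succ_pos _
  mono r s h := div_log_mono (Nat.log_mono_right h)

/-! ### Almost all primes -/

/-- clause (5): almost all primes -/
def FivE (e : ℕ → ℕ) (A : Data → Data) : Prop :=
  ∀ ε : ℝ, 0 < ε → ∃ (C : ℕ) (E : Set ℕ),
    (∀ X : ℕ, ((E ∩ Set.Iic X).ncard : ℝ) ≤ C * (X : ℝ) ^ (1 / 2 + ε)) ∧
    ∀ p : ℕ, p.Prime → p ∉ E → ∀ f : (ZMod p)[X], f ≠ 0 → ∀ s : ℕ, 1 ≤ s → FewFacN s f →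
      ∀ w : Data, (s ^ e s * Nat.size p) ^ C ≤ w.dataSize →
        IsFactorization f (A (Data.pair (input f) w))

theorem nrAll_ne_of_evNr {p N r : ℕ} (h : evNr p N r ≠ []) : nrAll p N r ≠ [] :=
  nrApp_right (nrApp_right (nrApp_right (nrApp_right h)))

theorem fivE_of_machine {e : ℕ → ℕ} (he : ExpOK e) (hNR : NRE e) {C₀ : ℕ} {A : Data → Data}
    (hA2 : ComplE e C₀ nrAll A) : FivE e A := by
  intro ε hε
  obtain ⟨C, E, hE, hC⟩ := hNR ε hε
  refine ⟨2 * C + C₀, E, fun X => ?_, ?_⟩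
  · refine (hE X).trans ?_
    have h0 : (0 : ℝ) ≤ (X : ℝ) ^ (1 / 2 + ε) := by positivity
    refine mul_le_mul_of_nonneg_right ?_ h0
    exact_mod_cast (by omega : C ≤ 2 * C + C₀)
  · intro p hp hpE f hf s hs hS w hw
    have hsz : 1 ≤ Nat.size p := Nat.size_pos.2 hp.pos
    have hs1 : 1 ≤ s ^ e s := Nat.pow_pos (by omega)
    set Q := s ^ e s * Nat.size p with hQ
    have hQ1 : 1 ≤ Q := Nat.mul_pos hs1 hsz
    have hsQ : s ^ e s ≤ Q := Nat.le_mul_of_pos_right _ hsz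
    refine hA2 p hp f hf s hs hS w ?_ ?_
    · refine le_trans ?_ hw
      calc s ^ (C₀ * e s) = (s ^ e s) ^ C₀ := by rw [← pow_mul, mul_comm]
        _ ≤ Q ^ C₀ := Nat.pow_le_pow_left hsQ C₀
        _ ≤ Q ^ (2 * C + C₀) := Nat.pow_le_pow_right hQ1 (by omega)
    · intro N hN hNp r hr hrs
      have h6 : (r ^ e r * Nat.size p) ^ C ≤ N := by
        refine le_trans ?_ (hw.trans hN)
        calc (r ^ e r * Nat.size p) ^ C ≤ (Q ^ 2) ^ C := by
              refine Nat.pow_le_pow_left ?_ _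
              calc r ^ e r * Nat.size p ≤ (s ^ e s) ^ 2 * (Nat.size p) ^ 2 :=
                    Nat.mul_le_mul (he.pow_mono hrs hs) (Nat.le_self_pow (by norm_num) _)
                _ = Q ^ 2 := by rw [hQ, mul_pow]
          _ = Q ^ (2 * C) := by rw [← pow_mul]
          _ ≤ Q ^ (2 * C + C₀) := Nat.pow_le_pow_right hQ1 (by omega)
      have : Fact p.Prime := ⟨hp⟩
      obtain ⟨l, hl1, hl2, hl3, hl4, hl5⟩ := (hC p hp hpE r hr N h6).resolve_left (by omega)
      exact nrAll_ne_of_evNr (evNr_ne hr hl1 hl2 hl3 hl4 hl5)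

/-! ### The amortized bound -/

/-- the amortized bound (compare `Ev.amortize`) -/
theorem amortizeQ {C₁ : ℕ} {E : Set ℕ} {K : ℕ}
    (hE : ∀ X : ℕ, ((E ∩ Set.Iic X).ncard : ℝ) ≤ K * (X : ℝ) ^ ((1 / 2 : ℝ) + 1 / 8)) (Q : ℕ)
    (hQ : 1 ≤ Q) (k : ℕ) (hk : 1 ≤ k) (D : ℝ) :
    ∃ (b : ℕ → ℕ) (X₀ : ℕ), (∀ p, p ∉ E → (Q * Nat.size p) ^ C₁ ≤ b p) ∧
      (∀ p, p ∈ E → D * (p : ℝ) ^ (1 / (8 * k) : ℝ) ≤ b p) ∧
      ∀ X ≥ X₀, ∑ p ∈ (Finset.range (X + 1)).filter Nat.Prime, (b p) ^ k ≤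
        Nat.primeCounting X * (Q * Nat.size X) ^ (C₁ * k + 2) := by
  classical
  refine ⟨fun p => if p ∈ E then ⌈D * (p : ℝ) ^ (1 / (8 * k) : ℝ)⌉₊ else
    (Q * Nat.size p) ^ C₁, ?_⟩
  have hk0 : (0 : ℝ) < k := by exact_mod_cast hk
  have hθ : (0 : ℝ) ≤ 1 / (8 * k) := by positivity
  have hlim : Filter.Tendsto (fun X : ℕ => (X : ℝ) ^ (1 / 4 : ℝ) / Real.log X) Filter.atTop
      Filter.atTop := by
    have h1 : Filter.Tendsto (fun x : ℝ => Real.log x / x ^ (1 / 4 : ℝ)) Filter.atTop (nhds 0) :=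
      (isLittleO_log_rpow_atTop (by norm_num)).tendsto_div_nhds_zero
    have h2 : Filter.Tendsto (fun x : ℝ => Real.log x / x ^ (1 / 4 : ℝ)) Filter.atTop
        (nhdsWithin 0 (Set.Ioi 0)) := by
      rw [tendsto_nhdsWithin_iff]
      refine ⟨h1, ?_⟩
      filter_upwards [Filter.eventually_gt_atTop 1] with x hx
      exact div_pos (Real.log_pos hx) (Real.rpow_pos_of_pos (by linarith) _)
    have h3 := h2.inv_tendsto_nhdsGT_zero
    have h4 : Filter.Tendsto (fun x : ℝ => x ^ (1 / 4 : ℝ) / Real.log x) Filter.atTop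
        Filter.atTop := by
      refine h3.congr fun x => ?_
      simp [inv_div]
    exact h4.comp tendsto_natCast_atTop_atTop
  have hev := hlim.eventually_ge_atTop (4 * ((K : ℝ) * (|D| + 1) ^ k) + 1)
  rw [Filter.eventually_atTop] at hev
  obtain ⟨X₁, hX₁⟩ := hev
  refine ⟨max X₁ 100, fun p hp => by simp [hp], fun p hp => ?_, fun X hX => ?_⟩
  · simp only [if_pos hp]
    exact Nat.le_ceil _
  · have hX1 : X₁ ≤ X := le_of_max_le_left hX
    have hX2 : 100 ≤ X := le_of_max_le_right hX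
    have hXr : (100 : ℝ) ≤ X := by exact_mod_cast hX2
    have hX0 : (0 : ℝ) < X := by linarith
    set Y : ℕ := Q * Nat.size X with hY
    have hsz : 1 ≤ Nat.size X := by
      have := Nat.size_pos.2 (by omega : 0 < X)
      omega
    have hY1 : 1 ≤ Y := Nat.mul_pos hQ hsz
    have hY2 : 2 ≤ Y := by
      have h2 : Nat.size 2 ≤ Nat.size X := Nat.size_le_size (by omega)
      have h3 : Nat.size 2 = 2 := by decide
      calc 2 = 1 * 2 := rfl
        _ ≤ Q * Nat.size X := Nat.mul_le_mul hQ (by omega)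
    -- split the sum
    have h1 : ∑ p ∈ (Finset.range (X + 1)).filter Nat.Prime,
        (if p ∈ E then ⌈D * (p : ℝ) ^ (1 / (8 * k) : ℝ)⌉₊ else
          (Q * Nat.size p) ^ C₁) ^ k ≤
        ∑ p ∈ (Finset.range (X + 1)).filter Nat.Prime, Y ^ (C₁ * k) +
        ∑ p ∈ (Finset.range (X + 1)).filter (fun p => p ∈ E),
          ⌈|D| * (X : ℝ) ^ (1 / (8 * k) : ℝ)⌉₊ ^ k := by
      have h2 : ∀ p ∈ (Finset.range (X + 1)).filter Nat.Prime,
          (if p ∈ E then ⌈D * (p : ℝ) ^ (1 / (8 * k) : ℝ)⌉₊ else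
            (Q * Nat.size p) ^ C₁) ^ k ≤
          Y ^ (C₁ * k) + (if p ∈ E then ⌈|D| * (X : ℝ) ^ (1 / (8 * k) : ℝ)⌉₊ ^ k else 0) := by
        intro p hp
        rw [Finset.mem_filter, Finset.mem_range] at hp
        have hpX : (p : ℝ) ≤ X := by exact_mod_cast (by omega : p ≤ X)
        split_ifs with h3
        · refine le_trans ?_ (Nat.le_add_left _ _)
          apply Nat.pow_le_pow_left
          apply Nat.ceil_mono
          exact mul_le_mul (le_abs_self D) (Real.rpow_le_rpow (Nat.cast_nonneg _) hpX hθ)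
            (Real.rpow_nonneg (Nat.cast_nonneg _) _) (abs_nonneg D)
        · rw [add_zero, pow_mul]
          exact Nat.pow_le_pow_left (Nat.pow_le_pow_left
            (Nat.mul_le_mul_left _ (Nat.size_le_size (by omega))) _) _
      refine (Finset.sum_le_sum h2).trans ?_
      rw [Finset.sum_add_distrib]
      refine Nat.add_le_add_left ?_ _
      rw [← Finset.sum_filter]
      apply Finset.sum_le_sum_of_subset
      intro p hp
      rw [Finset.mem_filter, Finset.mem_filter] at hp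
      rw [Finset.mem_filter]
      exact ⟨hp.1.1, hp.2⟩
    have h2 : ((Finset.range (X + 1)).filter Nat.Prime).card = Nat.primeCounting X := by
      rw [Nat.primeCounting, Nat.primeCounting', Nat.count_eq_card_filter_range]
    have h3 : (((Finset.range (X + 1)).filter (fun p => p ∈ E)).card : ℝ) ≤
        K * (X : ℝ) ^ ((1 / 2 : ℝ) + 1 / 8) := by
      have h4 : ((Finset.range (X + 1)).filter (fun p => p ∈ E) : Set ℕ) = E ∩ Set.Iic X := by
        ext p
        simp only [Finset.coe_filter, Finset.mem_range, Set.mem_setOf_eq, Set.mem_inter_iff,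
          Set.mem_Iic]
        constructor
        · rintro ⟨a, b⟩; exact ⟨b, by omega⟩
        · rintro ⟨a, b⟩; exact ⟨by omega, a⟩
      rw [← Set.ncard_coe_finset, h4]
      exact hE X
    rw [Finset.sum_const, Finset.sum_const, smul_eq_mul, smul_eq_mul, h2] at h1
    refine h1.trans ?_
    -- the exceptional part
    have hpow : ((X : ℝ) ^ ((1 / 2 : ℝ) + 1 / 8)) * (X : ℝ) ^ (1 / 8 : ℝ) = (X : ℝ) ^ (3 / 4 : ℝ) := by
      rw [← Real.rpow_add hX0]; norm_num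
    have hone : (1 : ℝ) ≤ (X : ℝ) ^ (1 / (8 * k) : ℝ) := Real.one_le_rpow (by linarith) hθ
    have hex : ((((Finset.range (X + 1)).filter (fun p => p ∈ E)).card *
        ⌈|D| * (X : ℝ) ^ (1 / (8 * k) : ℝ)⌉₊ ^ k : ℕ) : ℝ) ≤
        K * (|D| + 1) ^ k * (X : ℝ) ^ (3 / 4 : ℝ) := by
      push_cast
      have h5 : ((⌈|D| * (X : ℝ) ^ (1 / (8 * k) : ℝ)⌉₊ : ℕ) : ℝ) ^ k ≤
          (|D| + 1) ^ k * (X : ℝ) ^ (1 / 8 : ℝ) := by
        have h6 := (Nat.ceil_lt_add_one (a := |D| * (X : ℝ) ^ (1 / (8 * k) : ℝ))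
          (by positivity)).le
        have h7 : ((⌈|D| * (X : ℝ) ^ (1 / (8 * k) : ℝ)⌉₊ : ℕ) : ℝ) ≤
            (|D| + 1) * (X : ℝ) ^ (1 / (8 * k) : ℝ) := by
          calc _ ≤ |D| * (X : ℝ) ^ (1 / (8 * k) : ℝ) + 1 := h6
            _ ≤ |D| * (X : ℝ) ^ (1 / (8 * k) : ℝ) + (X : ℝ) ^ (1 / (8 * k) : ℝ) := by linarith
            _ = _ := by ring
        calc _ ≤ ((|D| + 1) * (X : ℝ) ^ (1 / (8 * k) : ℝ)) ^ k :=
              pow_le_pow_left₀ (Nat.cast_nonneg _) h7 k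
          _ = (|D| + 1) ^ k * (X : ℝ) ^ (1 / 8 : ℝ) := by
              rw [mul_pow, ← Real.rpow_natCast ((X : ℝ) ^ (1 / (8 * k) : ℝ)) k,
                ← Real.rpow_mul hX0.le]
              congr 2
              field_simp
      calc _ ≤ (K * (X : ℝ) ^ ((1 / 2 : ℝ) + 1 / 8)) * ((|D| + 1) ^ k * (X : ℝ) ^ (1 / 8 : ℝ)) :=
            mul_le_mul h3 h5 (by positivity) (by positivity)
        _ = K * (|D| + 1) ^ k * ((X : ℝ) ^ ((1 / 2 : ℝ) + 1 / 8) * (X : ℝ) ^ (1 / 8 : ℝ)) := by ring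
        _ = _ := by rw [hpow]
    have hlog : 0 < Real.log X := Real.log_pos (by linarith)
    have hpi : K * (|D| + 1) ^ k * (X : ℝ) ^ (3 / 4 : ℝ) ≤ Nat.primeCounting X := by
      have h7 := Chebyshev.pi_ge X
      have h8 : (X : ℝ) * Real.log 2 - Real.log (X + 1) ≥ X / 4 := by
        have h9 : Real.log (X + 1) ≤ X / 4 := by
          have h10 : Real.log ((X + 1) / 16) ≤ (X + 1) / 16 - 1 :=
            Real.log_le_sub_one_of_pos (by positivity)
          rw [Real.log_div (by positivity) (by norm_num)] at h10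
          have h11 : Real.log 16 = 4 * Real.log 2 := by
            rw [show (16 : ℝ) = 2 ^ 4 by norm_num, Real.log_pow]; norm_num
          have h12 := Real.log_two_lt_d9
          rw [h11] at h10
          linarith
        have h12 := Real.log_two_gt_d9
        nlinarith
      have h9 : (X : ℝ) / 4 / Real.log X ≤ Nat.primeCounting X :=
        (div_le_div_of_nonneg_right h8 hlog.le).trans h7
      have h10 := hX₁ X hX1
      have h11 : (X : ℝ) = (X : ℝ) ^ (3 / 4 : ℝ) * (X : ℝ) ^ (1 / 4 : ℝ) := by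
        rw [← Real.rpow_add hX0]; norm_num
      have h12 : (0 : ℝ) ≤ (X : ℝ) ^ (3 / 4 : ℝ) := Real.rpow_nonneg hX0.le _
      calc K * (|D| + 1) ^ k * (X : ℝ) ^ (3 / 4 : ℝ)
          ≤ ((X : ℝ) ^ (1 / 4 : ℝ) / Real.log X / 4) * (X : ℝ) ^ (3 / 4 : ℝ) := by
            apply mul_le_mul_of_nonneg_right _ h12
            linarith
        _ = ((X : ℝ) ^ (3 / 4 : ℝ) * (X : ℝ) ^ (1 / 4 : ℝ)) / 4 / Real.log X := by ring
        _ = (X : ℝ) / 4 / Real.log X := by rw [← h11]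
        _ ≤ _ := h9
    have hex2 : ((Finset.range (X + 1)).filter (fun p => p ∈ E)).card *
        ⌈|D| * (X : ℝ) ^ (1 / (8 * k) : ℝ)⌉₊ ^ k ≤ Nat.primeCounting X := by
      exact_mod_cast hex.trans hpi
    calc Nat.primeCounting X * Y ^ (C₁ * k) +
        ((Finset.range (X + 1)).filter (fun p => p ∈ E)).card *
        ⌈|D| * (X : ℝ) ^ (1 / (8 * k) : ℝ)⌉₊ ^ k ≤
          Nat.primeCounting X * Y ^ (C₁ * k) + Nat.primeCounting X * 1 := by
          rw [mul_one]; exact Nat.add_le_add_left hex2 _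
      _ ≤ Nat.primeCounting X * Y ^ (C₁ * k) + Nat.primeCounting X * Y ^ (C₁ * k) :=
          Nat.add_le_add_left (Nat.mul_le_mul_left _ (Nat.one_le_pow _ _ hY1)) _
      _ = Nat.primeCounting X * (Y ^ (C₁ * k) * 2) := by ring
      _ ≤ Nat.primeCounting X * (Y ^ (C₁ * k) * Y ^ 2) := by
          apply Nat.mul_le_mul_left
          apply Nat.mul_le_mul_left
          calc 2 ≤ Y := hY2
            _ ≤ Y ^ 2 := Nat.le_self_pow (by norm_num) _
      _ = Nat.primeCounting X * Y ^ (C₁ * k + 2) := by rw [pow_add]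

/-- clause (6): amortized over the primes; `b` depends on `s` and `k` -/
def SixE (e : ℕ → ℕ) (A : Data → Data) : Prop :=
  ∃ C : ℕ, ∀ k s : ℕ, 1 ≤ k → 1 ≤ s → ∃ (b : ℕ → ℕ) (X₀ : ℕ),
    (∀ p : ℕ, p.Prime → ∀ f : (ZMod p)[X], f ≠ 0 → FewFacN s f → ∀ w : Data,
      b p ≤ w.dataSize → IsFactorization f (A (Data.pair (input f) w))) ∧
    ∀ X ≥ X₀, ∑ p ∈ (Finset.range (X + 1)).filter Nat.Prime, (b p) ^ k ≤
      Nat.primeCounting X * (s ^ e s * Nat.size X) ^ (C * k)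

theorem sixE_of {e : ℕ → ℕ} {A : Data → Data} (h5 : FivE e A)
    (h7 : ∀ (s : ℕ) (θ : ℝ), 0 < θ → ∃ C : ℝ, ∀ p : ℕ, p.Prime → ∀ f : (ZMod p)[X], f ≠ 0 →
      FewFacN s f → ∀ w : Data, C * (p : ℝ) ^ θ ≤ w.dataSize →
        IsFactorization f (A (Data.pair (input f) w))) : SixE e A := by
  obtain ⟨C, E, hE, hC⟩ := h5 (1 / 8) (by norm_num)
  refine ⟨C + 2, fun k s hk hs => ?_⟩
  have hk0 : (0 : ℝ) < k := by exact_mod_cast hk
  obtain ⟨D, hD⟩ := h7 s (1 / (8 * k)) (by positivity)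
  obtain ⟨b, X₀, h1, h2, h3⟩ := amortizeQ (C₁ := C) hE (s ^ e s) (Nat.pow_pos hs) k hk D
  refine ⟨b, max X₀ 1, fun p hp f hf hfs w hw => ?_, fun X hX =>
    (h3 X (le_of_max_le_left hX)).trans ?_⟩
  rotate_left
  · apply Nat.mul_le_mul_left
    apply Nat.pow_le_pow_right
    · have h4 : 1 ≤ Nat.size X := Nat.size_pos.2 (le_of_max_le_right hX)
      exact Nat.mul_pos (Nat.pow_pos hs) h4
    · nlinarith
  by_cases hpE : p ∈ E
  · exact hD p hp f hf hfs w ((h2 p hpE).trans (by exact_mod_cast hw))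
  · exact hC p hp hpE f hf s hs hfs w ((h1 p hpE).trans hw)

end Vale.Agent.P319.SC.H232
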