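import Vale.Agent.P319.SC.H272.Sep
import Vale.Agent.P319.SC.Asm
import Vale.Agent.P319.SC.H232.Five

/-! P319, block SC: ALG-SEP and ALG-ASM for an abstract exponent function `e`. -/

set_option linter.all false

namespace Vale.Agent.P319.SC.H232

open Polynomial Vale.Agent.P319 Vale.Agent.P319.Ev Vale.Agent.P319.SC Vale.Agent.P319.SC.H272

/-- the combinatorial theorem: a homogeneous configuration with `m` levels on `n ≥ 2` points does
not satisfy `bad m n` -/
def CombE (bad : ℕ → ℕ → Prop) : Prop :=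
  ∀ (V ι : Type) [Fintype V] [DecidableEq V] [DecidableEq ι] (m : ℕ)
    (𝒞 : Cfg V ι m), 2 ≤ Fintype.card V → (∀ a b : V, 𝒞.c1 a = 𝒞.c1 b) →
      ¬ bad m (Fintype.card V)

/-- the number of levels is large enough -/
def ArithE (e : ℕ → ℕ) (C₀ : ℕ) (bad : ℕ → ℕ → Prop) : Prop :=
  ∀ s n N M : ℕ, 2 ≤ n → n ≤ s → s ^ (C₀ * e s) ≤ N → (∀ k, n ^ k ≤ N → k ≤ M) →
    12 ≤ M ∧ bad (M / 2) n

/-- the tests separate, given nonresidues -/
def SEPE (e : ℕ → ℕ) (C₀ : ℕ) (nr : ℕ → ℕ → ℕ → List (List ℕ)) : Prop :=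
  ∀ (p N : ℕ) [Fact p.Prime] (g : List ℕ) (Z : Finset (ZMod p)), MonL p g →
  toPoly p g = ∏ a ∈ Z, (X - C a) → 2 ≤ Z.card → (∃ s, Z.card ≤ s ∧ s ^ (C₀ * e s) ≤ N) → N < p →
  (∀ r : ℕ, r.Prime → r ≤ Z.card → nr p N r ≠ []) →
    ∃ u ∈ Z, ∃ v ∈ Z, ∃ t ∈ scTestsForN nr p N g, eval u (toPoly p t) = 0 ∧ eval v (toPoly p t) ≠ 0

/-- **ALG-SEP**: the tests separate, given nonresidues -/
theorem sepE_of {e : ℕ → ℕ} {C₀ : ℕ} {bad : ℕ → ℕ → Prop} (hC : CombE bad)
    (hC₀ : ArithE e C₀ bad) (hVLU : VLUStmt) (hVLVec : VLVecStmt) (hCfg : CfgStmt)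
    (hCyc : CycStmt) (nr : ℕ → ℕ → ℕ → List (List ℕ)) [hok : NrOK nr] : SEPE e C₀ nr := by
  intro p N _ g Z hg hZ h2 hsN hNp hnr
  obtain ⟨s, hs1, hs2⟩ := hsN
  have hs : Sit p g Z := ⟨hg, hZ, by omega⟩
  have hlen := hs.len
  have hn : g.length - 1 = Z.card := by omega
  have hN0 : N ≠ 0 := by
    rintro rfl
    have : 0 < s ^ (C₀ * e s) := Nat.pow_pos (by omega)
    omega
  set M := scM N g with hMdef
  have hMlog : M = Nat.log Z.card N := by
    rw [hMdef, scM_eq (by omega) hN0, hn]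
  have hMN : Z.card ^ M ≤ N := by
    rw [hMlog]; exact Nat.pow_log_le_self _ hN0
  obtain ⟨hM12, hlt⟩ := hC₀ s Z.card N M h2 hs1 hs2 (by
    intro k hk
    rw [hMlog]
    exact Nat.le_log_of_pow_le (by omega) hk)
  have hbig : (Z.card + 1) ^ 3 < p := by
    have h1 : (Z.card + 1) ^ 3 ≤ Z.card ^ 6 := by
      have h3 : Z.card + 1 ≤ Z.card ^ 2 := by nlinarith
      calc (Z.card + 1) ^ 3 ≤ (Z.card ^ 2) ^ 3 := Nat.pow_le_pow_left h3 3
        _ = Z.card ^ 6 := by rw [← pow_mul]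
    have h3 : Z.card ^ 6 ≤ Z.card ^ M := Nat.pow_le_pow_right (by omega) (by omega)
    omega
  have hsq : Z.card * Z.card < p := by
    have h1 : Z.card * Z.card ≤ (Z.card + 1) ^ 3 := by nlinarith
    omega
  have H : EvN.Ctx nr p N g Z M := by
    refine ⟨hs, h2, hsq, pw, fun r hr hrn al hal => ?_, hnr⟩
    apply hok.ok p N r hr _ al hal
    rintro rfl
    nlinarith
  have hfin := iterate_spec (m := M) hs (scTestsN nr p N g M)
    (fun E hE => scTests_vec hVLU hVLVec H (by omega) hE) (Good.one hs) (by simp)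
  set E := (fun E => (scTestsN nr p N g M E).foldl (evRefine p g M) E)^[Z.card ^ M]
    [(evOps p g M).one] with hEdef
  have hE' : scFinalN nr p N g M = E := by
    rw [hEdef]
    unfold scFinalN
    rw [hn]
    rfl
  have hF : scTestsForN nr p N g = (scFinalN nr p N g M).map (evDiag p g M) := by
    unfold scTestsForN
    rw [if_pos ⟨by omega, by omega, by
      rw [powClamp_le_iff (by omega), hn, ← hMdef]
      exact hMN⟩]
  obtain ⟨hE, hst⟩ := hfin
  have hS : SCtx nr p N g Z M E := ⟨H, hbig, hE, hst⟩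
  by_contra hcon
  push Not at hcon
  refine hC Z (List ℕ) (M / 2) (cfg hCfg hCyc hS (by omega) (by omega)) (by simpa using h2) ?_
    (by rw [Fintype.card_coe]; exact hlt)
  intro a b
  show scCol hS.good 1 (fun _ => a) = scCol hS.good 1 (fun _ => b)
  rw [scCol_one, scCol_one]
  by_contra hne
  have h3 : vl Z M (col hE fun _ => b) (fun _ => a) = 0 := by
    by_contra h4
    exact hne ((col_iff hE).2 ⟨col_mem hE _, h4⟩)
  have h5 := fun z hz => (ts6 p g Z hs M (col hE fun _ => b)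
    (hE.vec _ (col_mem hE _))).2 z hz
  have h6 := hcon a a.2 b b.2 (evDiag p g M (col hE fun _ => b)) (by
    rw [hF, hE']
    exact List.mem_map_of_mem (col_mem hE _)) (by rw [h5 _ a.2]; exact h3)
  rw [h5 _ b.2] at h6
  exact col_ne hE _ h6



/-- completeness of `run4N nr` -/
theorem run4_completeE {e : ℕ → ℕ} {nr : ℕ → ℕ → ℕ → List (List ℕ)} {C₀ : ℕ}
    (hSEP : SEPE e C₀ nr) {p : ℕ}
    [hpf : Fact p.Prime] (s : ℕ) (f : (ZMod p)[X]) (hf : f ≠ 0) (hS : SC.FewFac s f)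
    (N : ℕ) (hN : s ^ (C₀ * e s) ≤ N) (hfN : f.natDegree + 1 ≤ N)
    (hnr : p ≤ N ∨ ∀ r : ℕ, r.Prime → r ≤ s → nr p N r ≠ []) :
      IsFactorization f (enc (run4N nr p N (coefL f))).fst := by
  classical
  have hp := hpf.out
  have hb := coefL_bdd f
  have h0 : toPoly p (coefL f) ≠ 0 := by rwa [toPoly_coefL]
  have hm := monL_monicL hb h0
  have hTb := sc_asm_shiftsB_lt (nr := nr) hm N
  have hinv := factorL_inv hm hTb
  apply sc_asm_ok (nr := nr) hf N
  apply (checkL_iff hm hinv).2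
  have hdvd : toPoly p (monicL p (coefL f)) ∣ f := by
    rcases monicL_spec hb with h1 | ⟨_, _, _, c, hc, h4⟩
    · exact absurd h1.1 h0
    · rw [h4, toPoly_coefL]
      refine ⟨C c⁻¹, ?_⟩
      rw [mul_right_comm, ← C_mul, mul_inv_cancel₀ hc, C_1, one_mul]
  have hlenf : (monicL p (coefL f)).length ≤ N := by
    rcases monicL_spec hb with h1 | ⟨_, _, h5, _⟩
    · exact absurd h1.1 h0
    · rw [coefL_length] at h5; omega
  set g := monicL p (coefL f) with hg
  by_cases hpN : p ≤ N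
  · have e' : scShiftsBN nr p N g = List.range p := by unfold scShiftsBN; rw [if_pos hpN]
    rw [e'] at hTb ⊢
    exact factorL_complete hm hTb sep_range
  · have hNp : N < p := by omega
    replace hnr := hnr.resolve_left hpN
    refine factorL_complete' hm hTb ?_
    intro P hPi hPm hPg j hj
    -- find the piece which contains `P`
    have hpinv : PInv p g ((ddfTests p g).foldl (refineL p)
        ([g].filter fun l => decide (2 ≤ l.length))) := foldl_inv (ddfTests_bdd hm) (start_inv hm)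
    have hex : ∃ l ∈ ((ddfTests p g).foldl (refineL p)
        ([g].filter fun l => decide (2 ≤ l.length))), P ∣ toPoly p l := by
      have h1 := hPg
      rw [← hpinv.2] at h1
      obtain ⟨q, hq, hPq⟩ := (Prime.dvd_prod_iff hPi.prime).1 h1
      obtain ⟨l, hl, rfl⟩ := List.mem_map.1 hq
      exact ⟨l, hl, hPq⟩
    obtain ⟨l, hl, hPl⟩ := hex
    obtain ⟨d, hd1, hdf, PP, hPP, hlP⟩ := ddf_pieces hm l hl
    have hPmem : P ∈ PP := by
      have h1 := hPl
      rw [hlP] at h1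
      obtain ⟨Q, hQ, hPQ⟩ := (Prime.dvd_finsetProd_iff hPi.prime _).1 h1
      have h2 : P = Q := eq_of_monic_of_associated hPm (hPP Q hQ).1
        (hPi.associated_of_dvd (hPP Q hQ).2.1 hPQ)
      rw [h2]; exact hQ
    have hPd : P.natDegree = d := (hPP P hPmem).2.2
    have hlM := (hpinv.1 l hl).1
    have hllen : l.length < p := by
      have h1 := hlM.length hp.one_lt
      have h2 := hm.length hp.one_lt
      have h3 := natDegree_le_of_dvd (hpinv.dvd hl) (hm.monic hp.one_lt).ne_zero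
      omega
    obtain ⟨Z, hZc, hZm, hZp⟩ := valPoly_spec hlM d hd1 j PP hPP hlP hllen
    have hPPs : PP.card ≤ s := by
      apply hS d
      intro Q hQ
      refine ⟨(hPP Q hQ).1, (hPP Q hQ).2.1, (hPP Q hQ).2.2, ?_⟩
      refine dvd_trans ?_ ((hpinv.dvd hl).trans hdvd)
      rw [hlP]
      exact Finset.dvd_prod_of_mem _ hQ
    obtain ⟨t, ht, hte⟩ := sc_rootShifts_complete (nr := nr) (N := N) (s := s) (by
      intro l' Z' hl' hZ' h2 hs'
      exact hSEP p N l' Z' hl' hZ' h2 ⟨s, hs', hN⟩ hNp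
        (fun r hr hrZ => hnr r hr (hrZ.trans hs'))) (valPoly_monL hlM d j) Z hZp
      (hZc.trans hPPs) _ (hZm P hPmem)
    refine ⟨t, ?_, hte⟩
    unfold scShiftsBN
    rw [if_neg hpN]
    unfold scShiftsOfN
    simp only [List.mem_flatMap]
    exact ⟨l, hl, d, List.mem_range.2 hdf, j, List.mem_range.2 (by omega), ht⟩



/-- **ALG-ASM** -/
theorem machE_of {e : ℕ → ℕ} (HPF : PFStmt) (C₀ : ℕ) (nr : ℕ → ℕ → ℕ → List (List ℕ)) [NrOK nr]
    (hSEP : SEPE e C₀ nr) : MachE e C₀ nr := by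
  obtain ⟨A, hA, hA'⟩ := exists_machine4 (nr := nr) HPF
  refine ⟨A, hA, ?_, ?_⟩
  · intro p hp f hf w
    have : Fact p.Prime := ⟨hp⟩
    obtain ⟨N, _, _, h3⟩ := hA' p hp f hf w
    rw [h3]
    exact run4_sound hf N
  · intro p hp f hf s hs hS w hw hnr
    have : Fact p.Prime := ⟨hp⟩
    obtain ⟨N, h1, h2, h3⟩ := hA' p hp f hf w
    rw [h3]
    refine run4_completeE hSEP s f hf hS N (hw.trans h1) h2 ?_
    by_cases hpN : p ≤ N
    · exact Or.inl hpN
    · exact Or.inr fun r hr hrs => hnr N h1 (by omega) r hr hrs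

end Vale.Agent.P319.SC.H232
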