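import Vale.Agent.P319.SC.H232.Mach

/-! P319, block SC: the final statement with the exponent `⌈(log₂ s)^(2/3)⌉`. -/

set_option linter.all false

namespace Vale.Agent.P319.SC.H232

open Polynomial Turing Vale.Agent.P319.U Vale.Agent.P319.TF Vale.Agent.P319.SC.QL
  Vale.Agent.P319.DIV Vale.Agent.P319.TM

theorem eab_le {s : ℕ} (hs : 1 ≤ s) :
    s ^ eab 2 3 s ≤ (s ^ ⌈(Real.logb 2 s) ^ (2 / 3 : ℝ)⌉₊) ^ 2 := by
  rcases Nat.lt_or_ge s 2 with h | h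
  · have : s = 1 := by omega
    subst this
    simp
  · rw [← pow_mul]
    refine Nat.pow_le_pow_right (by omega) ?_
    have h0 : (1 : ℝ) ≤ Real.logb 2 s := by
      rw [Real.le_logb_iff_rpow_le (by norm_num) (by positivity), Real.rpow_one]
      exact_mod_cast h
    have h1 : (1 : ℝ) ≤ (Real.logb 2 s) ^ (2 / 3 : ℝ) := Real.one_le_rpow h0 (by norm_num)
    have h2 : 1 ≤ ⌈(Real.logb 2 s) ^ (2 / 3 : ℝ)⌉₊ := Nat.one_le_ceil_iff.2 (by linarith)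
    have h3 : eab 2 3 s ≤ ⌈(Real.logb 2 s) ^ (2 / 3 : ℝ)⌉₊ + 1 := by
      unfold eab
      have h5 : ((Nat.log 2 s : ℕ) : ℝ) ≤ Real.logb 2 s := by
        have h4 := Nat.pow_log_le_self 2 (x := s) (by omega)
        rw [Real.le_logb_iff_rpow_le (by norm_num) (by positivity), Real.rpow_natCast]
        exact_mod_cast h4
      have h6 : ((Nat.log 2 s : ℕ) : ℝ) ^ (((2 : ℕ) : ℝ) / ((3 : ℕ) : ℝ)) ≤
          (Real.logb 2 s) ^ (2 / 3 : ℝ) := by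
        rw [show (((2 : ℕ) : ℝ) / ((3 : ℕ) : ℝ)) = (2 / 3 : ℝ) by norm_num]
        exact Real.rpow_le_rpow (Nat.cast_nonneg _) h5 (by norm_num)
      exact Nat.add_le_add_right (Nat.ceil_mono h6) 1
    omega

/-- **one Turing machine for everything**, exponent `2/3` -/
theorem turing23 (hNR : QL3.NR2Stmt) {C₀ : ℕ} (hMa : MachE (eab 2 3) C₀ nrAll) :
    ∃ M : TM2ComputableAux Bool Bool, (∀ k, Finite (M.tm.Γ k)) ∧
    -- (1) if the primes between `R` and `s` are good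
    (∀ K : ℕ, ∃ C : ℕ, ∀ R : ℕ, ∃ D : ℕ, ∀ p : ℕ, p.Prime → ∀ f : (ZMod p)[X], f ≠ 0 →
      ∀ s : ℕ, 1 ≤ s → FewFacN s f → ∀ Q : ℕ,
      s ^ ⌈(Real.logb 2 s) ^ (2 / 3 : ℝ)⌉₊ * Nat.size p ≤ Q →
      (∀ r : ℕ, r.Prime → R < r → r ≤ s → GoodR p r (Q ^ K)) →
      Factors M f (D * ((f.natDegree + 1) * Q) ^ C)) ∧
    -- (2) almost all primes
    (∀ ε : ℝ, 0 < ε → ∃ (C : ℕ) (E : Set ℕ),
      (∀ X : ℕ, ((E ∩ Set.Iic X).ncard : ℝ) ≤ C * (X : ℝ) ^ (1 / 2 + ε)) ∧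
      ∀ p : ℕ, p.Prime → p ∉ E → ∀ f : (ZMod p)[X], f ≠ 0 → ∀ s : ℕ, 1 ≤ s → FewFacN s f →
        Factors M f ((s ^ ⌈(Real.logb 2 s) ^ (2 / 3 : ℝ)⌉₊ *
          ((f.natDegree + 1) * Nat.size p)) ^ C)) ∧
    -- (3) amortized over the primes
    (∃ C : ℕ, ∀ k s n : ℕ, 1 ≤ k → 1 ≤ s → ∃ (b : ℕ → ℕ) (K : ℕ),
      (∀ p : ℕ, p.Prime → ∀ f : (ZMod p)[X], f ≠ 0 → f.natDegree ≤ n → FewFacN s f →
        Factors M f (b p)) ∧
      ∀ X : ℕ, ∑ p ∈ (Finset.range (X + 1)).filter Nat.Prime, (b p) ^ k ≤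
        Nat.primeCounting X * (s ^ ⌈(Real.logb 2 s) ^ (2 / 3 : ℝ)⌉₊ *
          ((n + 1) * Nat.size X)) ^ (C * k) + K) := by
  obtain ⟨M, hM, -, -, -, -, h5, h6, ⟨C, h7⟩⟩ := turingE (eab_ok 2 3) (nre_eab hNR) hMa
  refine ⟨M, hM, ?_, ?_, ?_⟩
  · intro K
    obtain ⟨C, hC⟩ := h5 K
    refine ⟨2 * C, fun R => ?_⟩
    obtain ⟨D, hD⟩ := hC R
    refine ⟨D, fun p hp f hf s hs hfs Q hQ hg => ?_⟩
    have h2 := two_le_size hp
    set q := s ^ ⌈(Real.logb 2 s) ^ (2 / 3 : ℝ)⌉₊ with hq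
    have hq1 : 1 ≤ q := Nat.pow_pos hs
    have hQ1 : 1 ≤ Q := le_trans (Nat.mul_pos hq1 (by omega)) hQ
    have h8 : s ^ eab 2 3 s * Nat.size p ≤ Q ^ 2 := by
      calc s ^ eab 2 3 s * Nat.size p ≤ q ^ 2 * (Nat.size p) ^ 2 :=
            Nat.mul_le_mul (eab_le hs) (Nat.le_self_pow (by norm_num) _)
        _ = (q * Nat.size p) ^ 2 := by rw [mul_pow]
        _ ≤ Q ^ 2 := Nat.pow_le_pow_left hQ 2
    refine (hD p hp f hf s hs hfs (Q ^ 2) h8 fun r hr hRr hrs => ?_).mono ?_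
    · refine GoodR.mono (hg r hr hRr hrs) ?_
      rw [← pow_mul]
      exact Nat.pow_le_pow_right hQ1 (by omega)
    · refine Nat.mul_le_mul_left _ ?_
      rw [pow_mul]
      refine Nat.pow_le_pow_left ?_ _
      rw [mul_pow]
      exact Nat.mul_le_mul_right _ (Nat.le_self_pow (by norm_num) _)
  · intro ε hε
    obtain ⟨C, E, hE, hC⟩ := h6 ε hε
    refine ⟨2 * C, E, fun X => (hE X).trans ?_, fun p hp hpE f hf s hs hfs => ?_⟩
    · refine mul_le_mul_of_nonneg_right ?_ (by positivity)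
      exact_mod_cast (by omega : C ≤ 2 * C)
    · refine (hC p hp hpE f hf s hs hfs).mono ?_
      rw [pow_mul]
      refine Nat.pow_le_pow_left ?_ _
      rw [mul_pow]
      exact Nat.mul_le_mul (eab_le hs) (Nat.le_self_pow (by norm_num) _)
  · refine ⟨2 * C, fun k s n hk hs => ?_⟩
    obtain ⟨b, K, h1, h2⟩ := h7 k s n hk hs
    refine ⟨b, K, h1, fun X => (h2 X).trans ?_⟩
    refine Nat.add_le_add_right (Nat.mul_le_mul_left _ ?_) _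
    rw [mul_assoc 2 C k, pow_mul _ 2 (C * k)]
    refine Nat.pow_le_pow_left ?_ _
    rw [mul_pow]
    exact Nat.mul_le_mul (eab_le hs) (Nat.le_self_pow (by norm_num) _)

end Vale.Agent.P319.SC.H232
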