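import Vale.Agent.P319.SC.H232.Five
import Vale.Agent.P319.TM.H150.Full

/-! P319, block SC, package FIN56: one machine for all clauses, with the exponent
`log s / log log s`. -/

set_option linter.all false

namespace Vale.Agent.P319.SC.H232

open Polynomial Turing Vale.Agent.P319.U Vale.Agent.P319.TF Vale.Agent.P319.SC.QL
  Vale.Agent.P319.DIV Vale.Agent.P319.TM

/-- the conditional clause with a free parameter `Q` for the budget: `C` depends only on the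
exponent `K` of the budget for the small primes `l` -/
def FptQ (e : ℕ → ℕ) (A : Data → Data) : Prop :=
  ∀ K : ℕ, ∃ C : ℕ, ∀ R : ℕ, ∃ D : ℕ, ∀ p : ℕ, p.Prime → ∀ f : (ZMod p)[X], f ≠ 0 →
    ∀ s : ℕ, 1 ≤ s → FewFacN s f → ∀ Q : ℕ, s ^ e s * Nat.size p ≤ Q →
      (∀ r : ℕ, r.Prime → R < r → r ≤ s → GoodR p r (Q ^ K)) →
      ∀ w : Data, D * Q ^ C ≤ w.dataSize → IsFactorization f (A (Data.pair (input f) w))

theorem fptQ_of_machine {e : ℕ → ℕ} (he : ExpOK e) {nr : ℕ → ℕ → ℕ → List (List ℕ)}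
    (hnr : NrF nr) {C₀ : ℕ} {A : Data → Data} (hA2 : ComplE e C₀ nr A) : FptQ e A := by
  obtain ⟨C, hC2, hC⟩ := hnr
  intro E
  refine ⟨(E + 1) * (C + C₀), fun R => ?_⟩
  obtain ⟨K, hK1, hK⟩ := hC R
  refine ⟨K, ?_⟩
  intro p hp f hf s hs hS N₁ hN1 hgood w hw
  have hsz : 2 ≤ Nat.size p := by
    have := Nat.size_le_size hp.two_le
    rwa [show Nat.size 2 = 2 from rfl] at this
  have hE1 : 1 ≤ e s := he.one s
  have hs1 : 1 ≤ s ^ e s := Nat.pow_pos (by omega)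
  have hszN : Nat.size p ≤ N₁ := (Nat.le_mul_of_pos_left _ hs1).trans hN1
  have hb2 : 2 ≤ N₁ := hsz.trans hszN
  set N₀ := N₁ ^ (E + 1) with hN0
  have h10 : N₁ ≤ N₀ := by
    calc N₁ = N₁ ^ 1 := (pow_one _).symm
      _ ≤ N₁ ^ (E + 1) := Nat.pow_le_pow_right (by omega) (by omega)
  have hw' : K * N₀ ^ (C + C₀) ≤ w.dataSize := by
    rw [hN0, ← pow_mul]
    exact hw
  have hw'' : K * N₀ ^ C ≤ w.dataSize :=
    (Nat.mul_le_mul_left _ (Nat.pow_le_pow_right (by omega) (by omega))).trans hw'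
  refine hA2 p hp f hf s hs hS w ?_ ?_
  · refine le_trans ?_ hw'
    refine le_trans ?_ (Nat.le_mul_of_pos_left _ hK1)
    calc s ^ (C₀ * e s) = (s ^ e s) ^ C₀ := by rw [← pow_mul, mul_comm]
      _ ≤ N₁ ^ C₀ :=
        Nat.pow_le_pow_left ((Nat.le_mul_of_pos_right _ (by omega)).trans hN1) C₀
      _ ≤ N₀ ^ C₀ := Nat.pow_le_pow_left h10 C₀
      _ ≤ N₀ ^ (C + C₀) := Nat.pow_le_pow_right (by omega) (by omega)
  · intro N hN hNp r hr hrs
    refine hK p hp N₀ (hb2.trans h10) (hszN.trans h10) N (hw''.trans hN) hNp r hr ?_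
    intro hRr
    refine ⟨GoodR.mono (hgood r hr hRr hrs) (Nat.pow_le_pow_right (by omega) (by omega)), ?_⟩
    have h11 : r * Nat.size p ≤ N₁ := by
      refine le_trans (Nat.mul_le_mul_right _ (hrs.trans ?_)) hN1
      calc s = s ^ 1 := (pow_one s).symm
        _ ≤ s ^ e s := Nat.pow_le_pow_right (by omega) hE1
    exact h11.trans h10

/-- from the machine for the supplier `nrAll` -/
theorem fptQ_of {e : ℕ → ℕ} (he : ExpOK e) {C₀ : ℕ} {A : Data → Data}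
    (hA2 : ComplE e C₀ nrAll A) : FptQ e A :=
  fptQ_of_machine he (nrAll_neF ntf (H827.ntm2 H244.ntu2)) hA2

/-- the machine with the new clauses, and the clause for all primes with budget `p ^ θ` -/
theorem machine56 {e : ℕ → ℕ} (he : ExpOK e) (hNR : NRE e) {C₀ : ℕ} (hM : MachE e C₀ nrAll) :
    ∃ A : Data → Data, PolyTime A ∧
      (∀ (p : ℕ) (_ : p.Prime) (f : (ZMod p)[X]) (_ : f ≠ 0) (w : Data),
        A (Data.pair (input f) w) = Data.num 0 ∨ IsFactorization f (A (Data.pair (input f) w))) ∧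
      FptQ e A ∧ FivE e A ∧ SixE e A := by
  obtain ⟨G, hG, hG1, hG2⟩ := hM
  obtain ⟨F, hF, hF1, -, -, hF4⟩ := Ev.comb
  obtain ⟨A, hA, hA1, hA2⟩ := Ev.comb_machine hG hF hG1 hF1
  have hG5 : FptQ e G := fptQ_of he hG2
  have hG6 : FivE e G := fivE_of_machine he hNR hG2
  have hA6 : FivE e A := by
    intro ε hε
    obtain ⟨C, E, hE, hC⟩ := hG6 ε hε
    exact ⟨C, E, hE, fun p hp hpE f hf s hs hfs w hw =>
      hA2 p hp f hf w (Or.inl (hC p hp hpE f hf s hs hfs w hw))⟩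
  refine ⟨A, hA, hA1, ?_, hA6, ?_⟩
  · intro K
    obtain ⟨C, hC⟩ := hG5 K
    refine ⟨C, fun R => ?_⟩
    obtain ⟨D, hD⟩ := hC R
    exact ⟨D, fun p hp f hf s hs hfs Q hQ hr w hw =>
      hA2 p hp f hf w (Or.inl (hD p hp f hf s hs hfs Q hQ hr w hw))⟩
  · refine sixE_of hA6 fun s θ hθ => ?_
    obtain ⟨D, hD⟩ := hF4 s θ hθ
    exact ⟨D, fun p hp f hf hfs w hw => hA2 p hp f hf w (Or.inr (hD p hp f hf hfs w hw))⟩

/-- everything by one machine, for each `s₀` -/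
theorem comboE {e : ℕ → ℕ} (he : ExpOK e) (hNR : NRE e) {C₀ : ℕ} (hMa : MachE e C₀ nrAll)
    (s₀ : ℕ) :
    ∃ A : Data → Data, PolyTime A ∧
      (∀ (p : ℕ) (_ : p.Prime) (f : (ZMod p)[X]) (_ : f ≠ 0) (w : Data),
        IsDivSplitting s₀ f (A (Data.pair (input f) w))) ∧
      (∀ ε : ℝ, 0 < ε → ∃ C : ℝ, ∀ p : ℕ, p.Prime → ∀ f : (ZMod p)[X], f ≠ 0 → ∀ w : Data,
        C * (2 : ℝ) ^ (ε * ((f.natDegree + 1) * Nat.size p)) ≤ w.dataSize →
          IsFactorization f (A (Data.pair (input f) w))) ∧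
      FptQ e A ∧
      (∀ ε : ℝ, 0 < ε → ∃ (C : ℕ) (E : Set ℕ),
        (∀ X : ℕ, ((E ∩ Set.Iic X).ncard : ℝ) ≤ C * (X : ℝ) ^ (1 / 2 + ε)) ∧
        ∀ p : ℕ, p.Prime → p ∉ E → ∀ f : (ZMod p)[X], f ≠ 0 → ∀ s : ℕ, 1 ≤ s → FewFacN s f →
          ∀ w : Data, (s ^ e s * Nat.size p) ^ C ≤ w.dataSize →
            IsFactorization f (A (Data.pair (input f) w))) ∧
      (∃ C : ℕ, ∀ k s : ℕ, 1 ≤ k → 1 ≤ s → ∃ (b : ℕ → ℕ) (K : ℕ),
        (∀ p : ℕ, p.Prime → ∀ f : (ZMod p)[X], f ≠ 0 → FewFacN s f → ∀ w : Data,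
          b p ≤ w.dataSize → IsFactorization f (A (Data.pair (input f) w))) ∧
        ∀ X : ℕ, ∑ p ∈ (Finset.range (X + 1)).filter Nat.Prime, (b p) ^ k ≤
          Nat.primeCounting X * (s ^ e s * Nat.size X) ^ (C * k) + K) ∧
      (∃ C : ℕ, ∀ p : ℕ, p.Prime → ∀ f : (ZMod p)[X], f ≠ 0 →
        ∀ B : ℕ, 1 ≤ B → ((∀ q : ℕ, q.Prime → q ∣ p - 1 → q ≤ B) ∨
          (∀ q : ℕ, q.Prime → q ∣ p + 1 → q ≤ B)) →
        ∀ w : Data, (B * Nat.size p) ^ C ≤ w.dataSize →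
          IsFactorization f (A (Data.pair (input f) w))) := by
  obtain ⟨M, hM, hM1, -, ⟨C₁, hMb⟩, -, -, hMe⟩ := combAll
  obtain ⟨G, hG, hG1, hG2, hG3, ⟨C₂, hG4⟩⟩ := machine56 he hNR hMa
  obtain ⟨M', hM', hM1', hM2'⟩ := Ev.comb_machine hM hG hM1 hG1
  obtain ⟨A, hA, hA1, hA2'⟩ := comb_split (s₀ := s₀)
    (div_of_ntk fun r hr h2 _ => TK.H781.ntk hr h2) hM' hM1'
  have hA2 : ∀ (p : ℕ) (_ : p.Prime) (f : (ZMod p)[X]) (_ : f ≠ 0) (w : Data),
      IsFactorization f (M (Data.pair (input f) w)) →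
        IsFactorization f (A (Data.pair (input f) w)) :=
    fun p hp f hf w h => hA2' p hp f hf w (hM2' p hp f hf w (Or.inl h))
  have hA3 : ∀ (p : ℕ) (_ : p.Prime) (f : (ZMod p)[X]) (_ : f ≠ 0) (w : Data),
      IsFactorization f (G (Data.pair (input f) w)) →
        IsFactorization f (A (Data.pair (input f) w)) :=
    fun p hp f hf w h => hA2' p hp f hf w (hM2' p hp f hf w (Or.inr h))
  refine ⟨A, hA, hA1, ?_, ?_, ?_, ⟨C₂, ?_⟩, C₁, ?_⟩
  · intro ε hε
    obtain ⟨C, hC⟩ := hMe ε hε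
    exact ⟨C, fun p hp f hf w hw => hA2 p hp f hf w (hC p hp f hf w hw)⟩
  · intro K
    obtain ⟨C, hC⟩ := hG2 K
    refine ⟨C, fun R => ?_⟩
    obtain ⟨D, hD⟩ := hC R
    exact ⟨D, fun p hp f hf s hs hfs Q hQ hr w hw =>
      hA3 p hp f hf w (hD p hp f hf s hs hfs Q hQ hr w hw)⟩
  · intro ε hε
    obtain ⟨C, E, hE, hC⟩ := hG3 ε hε
    exact ⟨C, E, hE, fun p hp hpE f hf s hs hfs w hw =>
      hA3 p hp f hf w (hC p hp hpE f hf s hs hfs w hw)⟩
  · intro k s hk hs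
    obtain ⟨b, X₀, hb, hX⟩ := hG4 k s hk hs
    refine ⟨b, ∑ p ∈ (Finset.range (X₀ + 1)).filter Nat.Prime, (b p) ^ k,
      fun p hp f hf hfs w hw => hA3 p hp f hf w (hb p hp f hf hfs w hw), fun X => ?_⟩
    rcases le_total X₀ X with h | h
    · exact (hX X h).trans (Nat.le_add_right _ _)
    · refine le_trans ?_ (Nat.le_add_left _ _)
      apply Finset.sum_le_sum_of_subset
      apply Finset.filter_subset_filter
      intro p hp
      rw [Finset.mem_range] at hp ⊢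
      omega
  · intro p hp f hf B hB hB' w hw
    exact hA2 p hp f hf w (hMb p hp f hf B hB hB' w hw)

/-- **one Turing machine for everything** -/
theorem turingE {e : ℕ → ℕ} (he : ExpOK e) (hNR : NRE e) {C₀ : ℕ} (hMa : MachE e C₀ nrAll) :
    ∃ M : TM2ComputableAux Bool Bool, (∀ k, Finite (M.tm.Γ k)) ∧
    -- (1) `D(s) N ^ C`, `C` absolute
    (∃ C : ℕ, ∀ s : ℕ, ∃ D : ℕ, ∀ p : ℕ, p.Prime → ∀ f : (ZMod p)[X], f ≠ 0 → FewFacN s f →
      Factors M f (D * ((f.natDegree + 1) * Nat.size p) ^ C)) ∧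
    -- (2) a growing number of factors
    (∃ (C : ℕ) (h : ℕ → ℕ), Filter.Tendsto h Filter.atTop Filter.atTop ∧
      ∀ p : ℕ, p.Prime → ∀ f : (ZMod p)[X], f ≠ 0 →
        FewFacN (h ((f.natDegree + 1) * Nat.size p)) f →
        Factors M f (((f.natDegree + 1) * Nat.size p) ^ C)) ∧
    -- (3) everything, `2 ^ o(N)`
    (∀ ε : ℝ, 0 < ε → ∃ C : ℝ, ∀ p : ℕ, p.Prime → ∀ f : (ZMod p)[X], f ≠ 0 →
      ∃ t : ℕ, (t : ℝ) ≤ C * (2 : ℝ) ^ (ε * ((f.natDegree + 1) * Nat.size p)) ∧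
        Factors M f t) ∧
    -- (4) everything, if `p - 1` or `p + 1` is smooth
    (∃ C : ℕ, ∀ p : ℕ, p.Prime → ∀ f : (ZMod p)[X], f ≠ 0 →
      ∀ B : ℕ, 1 ≤ B → ((∀ q : ℕ, q.Prime → q ∣ p - 1 → q ≤ B) ∨
        (∀ q : ℕ, q.Prime → q ∣ p + 1 → q ≤ B)) →
      Factors M f ((B * ((f.natDegree + 1) * Nat.size p)) ^ C)) ∧
    -- (5) if the primes between `R` and `s` are good
    (∀ K : ℕ, ∃ C : ℕ, ∀ R : ℕ, ∃ D : ℕ, ∀ p : ℕ, p.Prime → ∀ f : (ZMod p)[X], f ≠ 0 →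
      ∀ s : ℕ, 1 ≤ s → FewFacN s f → ∀ Q : ℕ, s ^ e s * Nat.size p ≤ Q →
      (∀ r : ℕ, r.Prime → R < r → r ≤ s → GoodR p r (Q ^ K)) →
      Factors M f (D * ((f.natDegree + 1) * Q) ^ C)) ∧
    -- (6) almost all primes
    (∀ ε : ℝ, 0 < ε → ∃ (C : ℕ) (E : Set ℕ),
      (∀ X : ℕ, ((E ∩ Set.Iic X).ncard : ℝ) ≤ C * (X : ℝ) ^ (1 / 2 + ε)) ∧
      ∀ p : ℕ, p.Prime → p ∉ E → ∀ f : (ZMod p)[X], f ≠ 0 → ∀ s : ℕ, 1 ≤ s → FewFacN s f →
        Factors M f ((s ^ e s * ((f.natDegree + 1) * Nat.size p)) ^ C)) ∧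
    -- (7) amortized over the primes
    (∃ C : ℕ, ∀ k s n : ℕ, 1 ≤ k → 1 ≤ s → ∃ (b : ℕ → ℕ) (K : ℕ),
      (∀ p : ℕ, p.Prime → ∀ f : (ZMod p)[X], f ≠ 0 → f.natDegree ≤ n → FewFacN s f →
        Factors M f (b p)) ∧
      ∀ X : ℕ, ∑ p ∈ (Finset.range (X + 1)).filter Nat.Prime, (b p) ^ k ≤
        Nat.primeCounting X * (s ^ e s * ((n + 1) * Nat.size X)) ^ (C * k) + K) := by
  obtain ⟨A, hA, hn, ⟨Ca, ha⟩, ⟨Cb, hb⟩, -, -, hee, -⟩ := TF.combFpt
  obtain ⟨F, hF, hF1, hF2, hF3, ⟨C₀, hF4⟩⟩ := machine56 he hNR hMa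
  obtain ⟨A', hA', hn', hor⟩ := Ev.comb_machine hA hF hn hF1
  obtain ⟨M, c, hM, hM'⟩ := universal hA' hn'
  have key : ∀ (p : ℕ) (_ : p.Prime) (f : (ZMod p)[X]) (_ : f ≠ 0) (B : ℕ),
      (∀ w : Data, B ≤ w.dataSize → IsFactorization f (A (Data.pair (input f) w))) →
      Factors M f (((code f).length + B + 2) ^ c) := fun p hp f hf B hB =>
    hM' p hp f hf B fun w hw => hor p hp f hf w (Or.inl (hB w hw))
  have key2 : ∀ (p : ℕ) (_ : p.Prime) (f : (ZMod p)[X]) (_ : f ≠ 0) (B : ℕ),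
      (∀ w : Data, B ≤ w.dataSize → IsFactorization f (F (Data.pair (input f) w))) →
      Factors M f (((code f).length + B + 2) ^ c) := fun p hp f hf B hB =>
    hM' p hp f hf B fun w hw => hor p hp f hf w (Or.inr (hB w hw))
  -- (1)
  have h1 : ∀ s : ℕ, ∃ D : ℕ, ∀ p : ℕ, p.Prime → ∀ f : (ZMod p)[X], f ≠ 0 → FewFacN s f →
      Factors M f (D * ((f.natDegree + 1) * Nat.size p) ^ ((Ca + 1) * c)) := by
    intro s
    obtain ⟨D, hD⟩ := ha s
    refine ⟨(D + 8) ^ c, fun p hp f hf hs => ?_⟩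
    have h2 := two_le_size hp
    set N := (f.natDegree + 1) * Nat.size p with hN
    have hN1 : Nat.size p ≤ N := Nat.le_mul_of_pos_left _ (Nat.succ_pos _)
    refine (key p hp f hf _ (hD p hp f hf hs)).mono ?_
    exact bound_mul (by omega) (length_code_le hp f)
      (Nat.mul_le_mul_left _ (Nat.pow_le_pow_left hN1 _))
  refine ⟨M, hM, ⟨_, h1⟩, ?_, ?_, ?_, ?_, ?_, ?_⟩
  · -- (2)
    choose D hD using h1
    set C := (Ca + 1) * c with hC
    refine ⟨C + 1 + (D 0 + 1), fun m => Nat.findGreatest (fun s => D s ≤ m * (D 0 + 1)) m, ?_, ?_⟩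
    · rw [Filter.tendsto_atTop_atTop]
      intro s
      refine ⟨max s (D s), fun m hm => ?_⟩
      exact Nat.le_findGreatest ((le_max_left _ _).trans hm)
        (((le_max_right _ _).trans hm).trans (Nat.le_mul_of_pos_right _ (Nat.succ_pos _)))
    · intro p hp f hf hfs
      have h2 := two_le_size hp
      set N := (f.natDegree + 1) * Nat.size p with hN
      have hN1 : Nat.size p ≤ N := Nat.le_mul_of_pos_left _ (Nat.succ_pos _)
      have hN2 : 2 ≤ N := h2.trans hN1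
      refine (hD _ p hp f hf hfs).mono ?_
      have h3 : D (Nat.findGreatest (fun s => D s ≤ N * (D 0 + 1)) N) ≤ N * (D 0 + 1) :=
        Nat.findGreatest_spec (P := fun s => D s ≤ N * (D 0 + 1)) (m := 0) (n := N)
          (Nat.zero_le _) (by nlinarith)
      have h5 : D 0 + 1 ≤ N ^ (D 0 + 1) :=
        (Nat.lt_two_pow_self).le.trans (Nat.pow_le_pow_left hN2 _)
      calc D (Nat.findGreatest (fun s => D s ≤ N * (D 0 + 1)) N) * N ^ C
          ≤ (N * (D 0 + 1)) * N ^ C := Nat.mul_le_mul_right _ h3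
        _ ≤ (N * N ^ (D 0 + 1)) * N ^ C :=
            Nat.mul_le_mul_right _ (Nat.mul_le_mul_left _ h5)
        _ = N ^ (C + 1 + (D 0 + 1)) := by rw [pow_add, pow_add]; ring
  · -- (3)
    intro ε hε
    obtain ⟨δ, hδ, hδ'⟩ := bound_exp c ε hε
    obtain ⟨C, hC⟩ := hee δ hδ
    obtain ⟨C', hC'⟩ := hδ' |C|
    refine ⟨C', fun p hp f hf => ?_⟩
    set N := (f.natDegree + 1) * Nat.size p with hN
    have hcast : ((f.natDegree + 1) * Nat.size p : ℝ) = (N : ℝ) := by rw [hN]; push_cast; ring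
    set B : ℕ := ⌈|C| * (2 : ℝ) ^ (δ * N)⌉₊ with hB
    refine ⟨((code f).length + B + 2) ^ c, ?_, key p hp f hf B fun w hw => hC p hp f hf w ?_⟩
    · rw [hcast]
      refine hC' N _ _ (length_code_le hp f) ?_
      exact (Nat.ceil_lt_add_one (by positivity)).le
    · rw [hcast]
      have h1 : C * (2 : ℝ) ^ (δ * N) ≤ |C| * (2 : ℝ) ^ (δ * N) :=
        mul_le_mul_of_nonneg_right (le_abs_self C) (by positivity)
      have h2 : (B : ℝ) ≤ w.dataSize := by exact_mod_cast hw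
      exact (h1.trans (Nat.le_ceil _)).trans h2
  · -- (4)
    refine ⟨(Cb + 6) * c, fun p hp f hf B hB hBs => ?_⟩
    have h2 := two_le_size hp
    set N := (f.natDegree + 1) * Nat.size p with hN
    have hN1 : Nat.size p ≤ N := Nat.le_mul_of_pos_left _ (Nat.succ_pos _)
    have hN2 : N ≤ B * N := Nat.le_mul_of_pos_left _ hB
    refine (key p hp f hf _ (hb p hp f hf B hB hBs)).mono ?_
    refine bound_pow (h2.trans (hN1.trans hN2)) ((length_code_le hp f).trans ?_)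
      (Nat.pow_le_pow_left (Nat.mul_le_mul_left B hN1) Cb)
    exact Nat.mul_le_mul_left 6 hN2
  · -- (5)
    intro K
    obtain ⟨C, hC⟩ := hF2 K
    refine ⟨(C + 1) * c, fun R => ?_⟩
    obtain ⟨D, hD⟩ := hC R
    refine ⟨(D + 8) ^ c, fun p hp f hf s hs hfs Q hQ hg => ?_⟩
    have h2 := two_le_size hp
    have hs1 : 1 ≤ s ^ e s := Nat.pow_pos hs
    have hpQ : Nat.size p ≤ Q := (Nat.le_mul_of_pos_left _ hs1).trans hQ
    set N := (f.natDegree + 1) * Q with hN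
    have hN1 : Q ≤ N := Nat.le_mul_of_pos_left _ (Nat.succ_pos _)
    have hN2 : (f.natDegree + 1) * Nat.size p ≤ N := Nat.mul_le_mul_left _ hpQ
    refine (key2 p hp f hf _ (hD p hp f hf s hs hfs Q hQ hg)).mono ?_
    refine bound_mul (by omega) ((length_code_le hp f).trans (Nat.mul_le_mul_left 6 hN2)) ?_
    exact Nat.mul_le_mul_left _ (Nat.pow_le_pow_left hN1 C)
  · -- (6)
    intro ε hε
    obtain ⟨C, E, hE, hC⟩ := hF3 ε hε
    refine ⟨max C ((C + 6) * c), E, fun X => (hE X).trans ?_, fun p hp hpE f hf s hs hfs => ?_⟩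
    · exact mul_le_mul_of_nonneg_right (by exact_mod_cast le_max_left _ _) (by positivity)
    have h2 := two_le_size hp
    set N := (f.natDegree + 1) * Nat.size p with hN
    have hN1 : Nat.size p ≤ N := Nat.le_mul_of_pos_left _ (Nat.succ_pos _)
    have hN2 : N ≤ s ^ e s * N := Nat.le_mul_of_pos_left _ (Nat.pow_pos hs)
    refine (key2 p hp f hf _ (hC p hp hpE f hf s hs hfs)).mono ?_
    refine (bound_pow (h2.trans (hN1.trans hN2)) ((length_code_le hp f).trans ?_)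
      (Nat.pow_le_pow_left (Nat.mul_le_mul_left _ hN1) C)).trans ?_
    · exact Nat.mul_le_mul_left 6 hN2
    · exact Nat.pow_le_pow_right (by omega) (le_max_right _ _)
  · -- (7)
    refine ⟨(C₀ + 6) * (c + 1), fun k s n hk hs => ?_⟩
    set m := (c + 1) * k with hm
    have hm1 : 1 ≤ m := Nat.mul_pos (Nat.succ_pos _) hk
    obtain ⟨b, X₀, hb1, hb2⟩ := hF4 m s hm1 hs
    let b' : ℕ → ℕ := fun p => (6 * ((n + 1) * Nat.size p) + b p + 2) ^ (c + 1)
    refine ⟨b', ∑ p ∈ (Finset.range (X₀ + 1)).filter Nat.Prime, (b' p) ^ k, ?_, fun X => ?_⟩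
    · intro p hp f hf hfn hfs
      refine (key2 p hp f hf (b p) fun w hw => hb1 p hp f hf hfs w hw).mono ?_
      have h3 : (code f).length ≤ 6 * ((n + 1) * Nat.size p) := by
        refine (length_code_le hp f).trans ?_
        gcongr
      calc ((code f).length + b p + 2) ^ c ≤ (6 * ((n + 1) * Nat.size p) + b p + 2) ^ c :=
            Nat.pow_le_pow_left (by omega) c
        _ ≤ (6 * ((n + 1) * Nat.size p) + b p + 2) ^ (c + 1) :=
            Nat.pow_le_pow_right (by omega) (Nat.le_succ c)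
    · rcases le_total X₀ X with h | h
      · refine le_trans ?_ (Nat.le_add_right _ _)
        rcases Nat.lt_or_ge X 2 with h2 | h2
        · have : (Finset.range (X + 1)).filter Nat.Prime = ∅ := by
            rw [Finset.filter_eq_empty_iff]
            intro p hp hp'
            rw [Finset.mem_range] at hp
            have := hp'.two_le
            omega
          rw [this, Finset.sum_empty]
          exact Nat.zero_le _
        · have h3 : ∀ p, (b' p) ^ k = (6 * ((n + 1) * Nat.size p) + b p + 2) ^ m := fun p => by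
            rw [hm, pow_mul]
          simp only [h3]
          rw [mul_assoc, ← hm]
          exact bound_sum h2 (Nat.pow_pos hs) hm1 (hb2 X h)
      · refine le_trans ?_ (Nat.le_add_left _ _)
        apply Finset.sum_le_sum_of_subset
        apply Finset.filter_subset_filter
        intro p hp
        rw [Finset.mem_range] at hp ⊢
        omega

/-! ### The exponent `log s / log log s` -/

theorem nre_scE (h : NR2Stmt) : NRE scE := h

theorem machE_scE {C₀ : ℕ} (h : MachStmt C₀ nrAll) : MachE scE C₀ nrAll := h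

end Vale.Agent.P319.SC.H232
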