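import Vale.Agent.P319.SC.H232.E23
import Vale.Agent.P319.SC.H232.Joint
import Vale.Agent.P319.H924.VL
import Vale.Agent.P319.SC.H447.CfgP
import Vale.Agent.P319.SC.H763.Cyc
import Vale.Agent.P319.SC.PF
import Vale.Agent.P319.SC.H773.Main34
import Vale.Agent.P319.SC.H323.Start
import Vale.Agent.P319.H916.Main

/-! P319, block SC: the machine, from a combinatorial theorem. -/

set_option linter.all false

namespace Vale.Agent.P319.SC.H232

open Vale.Agent.P319.U

/-- the machine with budget `s ^ (C₀ e(s))`, from the combinatorial theorem -/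
theorem machE {e : ℕ → ℕ} {C₀ : ℕ} {bad : ℕ → ℕ → Prop} (hC : CombE bad) (hA : ArithE e C₀ bad)
    (nr : ℕ → ℕ → ℕ → List (List ℕ)) [NrOK nr] : MachE e C₀ nr :=
  machE_of pf C₀ nr (sepE_of hC hA H924.vlu H924.vlvec (H447.cfg H924.vlu)
    (cyc H924.vl H924.vlvec) nr)

theorem deg : DegStmt := Vale.Agent.P319.H676.deg_of_dbl Vale.Agent.P319.H916.dbl

theorem main34 : H323.Main34Stmt :=
  H323.main34_of H323.block (gro_min_of am Vale.Agent.P319.H924.van deg) deg

theorem machE34 : ∃ C₀ : ℕ, ∀ (nr : ℕ → ℕ → ℕ → List (List ℕ)) [NrOK nr], MachE (eab 3 4) C₀ nr := by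
  obtain ⟨C, hC⟩ := main34
  refine ⟨2 * (C + 12), fun nr _ => machE (bad := badab C 3 4) ?_ (arith_ab C (by norm_num)
    (by norm_num)) nr⟩
  intro V ι _ _ _ m 𝒞 h1 h2 hbad
  exact absurd (hC V ι m 𝒞 h1 h2) (not_le.2 hbad)

end Vale.Agent.P319.SC.H232
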