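import Vale.Agent.P319.SC.H232.Mach
import Vale.Agent.P319.SC.H323.Main23
import Vale.Agent.P319.SC.H235.TripleEnd

/-! P319, block SC: the machine with the exponent `2/3`. -/

set_option linter.all false

namespace Vale.Agent.P319.SC.H232

theorem main23 : H323.Main23Stmt :=
  H323.main23_of H235.triple (gro_min_of am Vale.Agent.P319.H924.van deg) deg

theorem machE23 : ∃ C₀ : ℕ, ∀ (nr : ℕ → ℕ → ℕ → List (List ℕ)) [NrOK nr], MachE (eab 2 3) C₀ nr := by
  obtain ⟨C, hC⟩ := main23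
  refine ⟨2 * (C + 12), fun nr _ => machE (bad := badab C 2 3) ?_ (arith_ab C (by norm_num)
    (by norm_num)) nr⟩
  intro V ι _ _ _ m 𝒞 h1 h2 hbad
  exact absurd (hC V ι m 𝒞 h1 h2) (not_le.2 hbad)

end Vale.Agent.P319.SC.H232
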